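import Vale.Agent.P210E.Zs
import Vale.Agent.P210G.Grad
import Vale.Agent.P210U.Band
import Vale.Agent.P223Y.Defs

/-!
# P223U: the degree inequality `CUBE` and its pieces (helper22)
-/

open Filter Topology Set MeasureTheory
open scoped ContDiff
open Vale.Agent.P366M Vale.Agent.P366M.Gr Vale.Agent.P366M.Y.C Vale.Agent.P366M.An
open Vale.Agent.P366D (Rf Sub pull)
open Vale.Agent.P210G Vale.Agent.P210U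
open Vale.Agent.P210E (K4 nk)
open Vale.Agent.P210L (Vf)
open Vale.Agent.P223Y (Jd)
open Fin (last)

noncomputable section

namespace Vale.Agent.P223U

/-- the potential -/
def Ph (s T y : ℝ) : ℝ := max (Real.exp (-s * y) - Real.exp (-s * T)) 0

/-- a bump function with support in `[-r, r]` -/
structure Bmp (r : ℝ) (ψ : ℝ → ℝ) : Prop where
  cont : Continuous ψ
  nn : ∀ t, 0 ≤ ψ t
  supp : ∀ t, r ≤ |t| → ψ t = 0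
  int : ∫ t, ψ t = 1

section

variable {n : ℕ} {M : Type} [Mf0 n M]

/-- the cost of a map -/
def Cst (g : Fld n M) (ψ : ℝ → ℝ) (G : Fin n → M → ℝ) (K : Set M) : ℝ :=
  ∫ x in K, (∏ j, ψ (G j x)) * |Jd g G x| ∂vol g

/-- the mass of the state `S` with the scale `l` and the weight `p` -/
def Ms (s T A : ℝ) (g : Fld n M) (S l p : M → ℝ) (K : Set M) : ℝ :=
  ∫ x in K, Ph s T (S x - A / l x ^ 2) * p x ^ n ∂vol g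

/-- the hypotheses of `CUBE` -/
structure Cd {m : ℕ} (g : Fld n M) (v : Fin n → M → ℝ) (l p : M → ℝ) (G : Fin m → M → ℝ)
    (O : Set M) (A : ℝ) : Prop where
  ok : Ok g v l
  smp : Smooth p
  p0 : ∀ x, 0 < p x
  smG : ∀ i, Smooth (G i)
  opn : IsOpen O
  cpt : IsCompact (K4 G O)
  bd : ∀ x ∈ K4 G O, gn g l x ≤ 1 ∧ l x * gn g p x ≤ p x ∧
    ∀ i, l x * gn g (G i) x ≤ 1 ∧ gn g (G i) x ≤ p x * (1 + A / l x ^ 2)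

end

/-- **CUBE** (for `n ≥ 2`) -/
def CUBE (n : ℕ) : Prop := ∀ s > (0 : ℝ), ∀ r ψ, Bmp r ψ → n * r ^ 2 ≤ 1 / 128 →
  ∃ A₀ T : ℝ, ∃ C ≥ (0 : ℝ), ∀ A ≥ A₀, ∀ (M : Type) [Mf0 n M] (g : Fld n M) (v : Fin n → M → ℝ)
    (l p : M → ℝ) (G : Fin n → M → ℝ) (O : Set M), Cd g v l p G O A → ∀ δ > (0 : ℝ),
    ∃ G' : Fin n → M → ℝ, (∀ i, Smooth (G' i)) ∧
      (∀ x, x ∉ O ∨ 1 ≤ nsq G x → ∀ i, G' i x = G i x) ∧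
      Cst g ψ G' (K4 G O) ≤ C * Ms s T A g (Rv g v) l p (K4 G O) + δ

/-- **RL**: relinking on a compact set, with the weight `ϖ` -/
def RL : Prop := ∀ (n : ℕ) (M : Type) [Mf0 n M] (g : Fld n M) (R S V q ϖ b : M → ℝ) (K K' : Set M)
  (s T δ : ℝ), 0 < n → Met g → Continuous R → Continuous S → Smooth V → Smooth q → Smooth ϖ →
  Continuous b → (∀ x, 0 < ϖ x) → (∀ x, 0 ≤ b x) → IsCompact K → IsCompact K' → K ⊆ interior K' →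
  Spec g R 4 (interior K') → 0 < s → 0 < δ →
  (∀ x ∈ K', S x + V x + b x / s + (gn g ϖ x / ϖ x) ^ 2 ≤ R x) → ∃ f, Smooth f ∧
    (∀ x ∈ K, V x - Real.log (Real.exp (f x + q x) + Real.exp (-s * T)) / s ≤ Rf g f x) ∧
    ∫ x in K, ϖ x * (1 + b x) * Real.exp (f x) ∂vol g ≤
      2 * ∫ x in K', ϖ x * (Ph s (T + 2 / s) (S x) * Real.exp (-q x)) ∂vol g + δ

/-- **TRACE**: the weighted area of the limit hypersurface (calibration and `NI`) -/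
def TRACE : Prop := ∀ (k : ℕ) (X Z I : Type) [Mf0 (k + 1) X] [Mf0 k Z] (𝒰 : Ultrafilter I)
  (g : Fld (k + 1) X) (f h : X → ℝ) (u : I → X → ℝ) (c e : I → ℝ) (O K A : Set X) (Λ κ : ℝ)
  (ι : Z → X) (B : X → ℝ), Vf 𝒰 g f h u c e O K Λ → Sub ι A →
  (∀ S > (0 : ℝ), ∀ z, Rg (𝒰 : Filter I) u S ι z) → Smooth B → (∀ x, 0 ≤ B x ∧ B x ≤ 1) → 0 ≤ κ →
  (∀ S, ∀ᶠ i in (𝒰 : Filter I), ∀ x,
    (x ∉ K → B x = 0 ∧ u i x < -S ∨ B x = 1 ∧ S < u i x) ∧ (x ∈ K →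
      (-S ≤ u i x → B x < 1 → -κ ≤ hw g f (u i) x) ∧
      (u i x ≤ S → 0 < B x → hw g f (u i) x ≤ κ))) →
  ∀ N : Set Z, IsCompact N → ∫ z in N, Real.exp (f (ι z)) ∂vol (pull ι g) ≤
    ∫ x in K, Real.exp (f x) * (gn g B x + κ) ∂vol g

/-- **NIJ**: the Jacobian of `(E, u i)` along the neck -/
def NIJ : Prop := ∀ (k : ℕ) (X Z I : Type) [Mf0 (k + 1) X] [Mf0 k Z] (𝒰 : Ultrafilter I)
  (g : Fld (k + 1) X) (f h : X → ℝ) (u : I → X → ℝ) (c e : I → ℝ) (O K Sg : Set X) (Λ : ℝ)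
  (ι : Z → X) (E : Fin k → X → ℝ) (ζ : X → ℝ) (θ : ℝ → ℝ), Vf 𝒰 g f h u c e O K Λ → IsClosed Sg →
  Sub ι (La 𝒰 u \ Sg) → (∀ S > (0 : ℝ), ∀ z, Rg (𝒰 : Filter I) u S ι z) → (∀ j, Smooth (E j)) →
  Continuous ζ → (∀ x, 0 ≤ ζ x) → (∀ x ∈ Sg, x ∉ tsupport ζ) → Continuous θ →
  HasCompactSupport θ → (∀ t, 0 ≤ θ t) → ∀ N : Set Z, IsCompact N → (∀ z, ζ (ι z) ≠ 0 → z ∈ N) →
  ∀ δ > (0 : ℝ), ∀ᶠ i in (𝒰 : Filter I),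
    ∫ x in K, ζ x * θ (u i x) * |Jd g (Fin.snoc (α := fun _ => X → ℝ) E (u i)) x| ∂vol g ≤
      (∫ t, θ t) * ∫ z in N, ζ (ι z) * |Jd (pull ι g) (fun j z => E j (ι z)) z| ∂vol (pull ι g) + δ

/-- **DEF**: the new map on the ambient manifold -/
def DEF : Prop := ∀ (r : ℝ) (ψ : ℝ → ℝ), Bmp r ψ → r ≤ 1 → ∃ θ : ℝ → ℝ, Continuous θ ∧
  HasCompactSupport θ ∧ (∀ t, 0 ≤ θ t) ∧ ∫ t, θ t = 1 ∧ ∀ (k : ℕ) (X : Type) [Mf0 (k + 1) X]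
    (g : Fld (k + 1) X) (G : Fin (k + 1) → X → ℝ) (E : Fin k → X → ℝ) (u : X → ℝ),
    (k + 1) * r ^ 2 ≤ 1 / 128 → (∀ j, Smooth (G j)) → (∀ j, Smooth (E j)) → Smooth u →
    (∀ x, |u x| ≤ 2 → |G (last k) x| ≤ 1 / 4 → ∀ σ ∈ Icc (0 : ℝ) 1,
      1 / 128 < ∑ j, ((1 - σ) * E j x + σ * G j.castSucc x) ^ 2) →
    ∃ G' : Fin (k + 1) → X → ℝ, (∀ j, Smooth (G' j)) ∧ (∀ x, 2 ≤ u x → ∀ j, G' j x = G j x) ∧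
      ∀ x, u x ≤ 2 → (∏ j, ψ (G' j x)) ≠ 0 → |u x| ≤ 1 ∧ 1 / 4 ≤ G (last k) x ∧
        (∏ j, ψ (G' j x)) * |Jd g G' x| =
          (∏ j, ψ (E j x)) * θ (u x) * |Jd g (Fin.snoc (α := fun _ => X → ℝ) E u) x|

/-- a family of capillary graphs for the weight `f` whose necks lie in the annulus -/
structure Nk {n m : ℕ} {M : Type} [Mf0 n M] (g : Fld n M) (l : M → ℝ) (G : Fin m → M → ℝ)
    (O : Set M) (f : M → ℝ) (C κ : ℝ) (h : M → ℝ) (u : ℕ → M → ℝ) (c e : ℕ → ℝ) (K₀ : Set M) (Λ : ℝ)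
    (B : M → ℝ) : Prop where
  vf : Vf (hyperfilter ℕ) g f h u c e {x ∈ O | 7 / 16 < nsq G x ∧ nsq G x < 11 / 16} K₀ Λ
  pos : ∀ x ∈ O, 7 / 16 < nsq G x → nsq G x < 11 / 16 → -C / l x ^ 2 - κ ≤ h x ^ 2 - 2 * gn g h x
  out : ∀ S, ∀ᶠ i in (hyperfilter ℕ : Filter ℕ), ∀ x, x ∉ O ∨ 11 / 16 ≤ nsq G x → S < u i x
  inn : ∀ S, ∀ᶠ i in (hyperfilter ℕ : Filter ℕ), ∀ x ∈ O, nsq G x ≤ 7 / 16 → u i x < -S
  smB : Smooth B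
  B01 : ∀ x, 0 ≤ B x ∧ B x ≤ 1
  gB : ∀ x ∈ K₀, gn g B x ≤ C * ∑ i, gn g (G i) x
  sgn : ∀ S, ∀ᶠ i in (hyperfilter ℕ : Filter ℕ), ∀ x,
    (x ∉ K₀ → B x = 0 ∧ u i x < -S ∨ B x = 1 ∧ S < u i x) ∧ (x ∈ K₀ →
      (-S ≤ u i x → B x < 1 → -κ ≤ hw g f (u i) x) ∧ (u i x ≤ S → 0 < B x → hw g f (u i) x ≤ κ))

/-- **NKT**: the neck for a given weight (`P223C.raw`, a forcing term with a flat middle part,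
`P210L.exists_vf`) -/
def NKT (n m : ℕ) : Prop := ∃ C ≥ (0 : ℝ), ∀ (M : Type) [Mf0 n M] (g : Fld n M) (l : M → ℝ)
  (G : Fin m → M → ℝ) (O : Set M) (f : M → ℝ), Met g → Smooth l → (∀ x, 0 < l x) → Rad O G →
  (∀ x ∈ K4 G O, gn g l x ≤ 1 ∧ ∀ i, l x * gn g (G i) x ≤ 1) → Smooth f → ∀ κ > (0 : ℝ),
  ∃ h u c e K₀ Λ B, Nk g l G O f C κ h u c e K₀ Λ B

section Hyp

variable {k : ℕ} {Z : Type} [Mf0 (k + 1) Z]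

/-- the data on the regular part of the hypersurface (as `P210E.Zh`, with a potential `V`) -/
structure Zc (γ : Fld (k + 1) Z) (β : Fin (k + 1) → Z → ℝ) (l p α : Z → ℝ)
    (D : Fin (k + 1) → Z → ℝ) (W w h V : Z → ℝ) (A m L Γ h₁ : ℝ) : Prop where
  ok : Ok γ β l
  smp : Smooth p
  p0 : ∀ z, 0 < p z
  smα : Smooth α
  smD : ∀ j, Smooth (D j)
  smW : Smooth W
  smw : Smooth w
  cV : Continuous V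
  cpt : IsCompact {z | w z ≤ 11 / 8}
  W1 : ∀ z, 1 ≤ W z
  lrg : ∀ z, 4 * w z ≤ W z
  smh : ∀ z, w z < 1 → CAt ∞ h z
  h0 : ∀ z, w z < 1 → 0 ≤ h z
  low : ∀ z, W z ≤ 2 → h z = 0
  cls : ∀ c, ∃ b < 1, ∀ z, w z < 1 → h z ≤ c → w z ≤ b
  pos : ∀ z, w z < 1 → -1 ≤ (gn γ W z / W z) ^ 2 / 2 + h z ^ 2 - 2 * gn γ h z
  big : ∀ z, w z < 1 → h₁ ≤ h z → gn γ h z ≤ 1 / 64 * h z ^ 2
  far : ∀ z, 1 ≤ w z → 1 ≤ m ^ 2 * nsq D z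
  sep : ∀ z, w z ≤ 11 / 8 → 0 < α z → nsq D z ≤ 1 / 16 → 1 / 2 ≤ α z
  zero : k = 0 → ∀ z, w z ≤ 1
  bd : ∀ z, w z ≤ 11 / 8 → V z + Γ * ((W z - 1) / W z) + (gn γ W z / W z) ^ 2 / 2 ≤ Rv γ β z ∧
    -L ≤ V z ∧ L⁻¹ ≤ l z ∧ l z ≤ L ∧ gn γ l z ≤ 1 ∧ l z * gn γ p z ≤ p z ∧
    ∀ j, l z * gn γ (D j) z ≤ 1 ∧ gn γ (D j) z ≤ p z * (1 + A / l z ^ 2)

end Hyp

/-- **ZC** (`k = 0`: the test function `√p` on the closed curve; `k ≥ 1`: shield move with the mass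
clause, zoom and `CUBE (k + 1)`) -/
def ZC (k : ℕ) : Prop := ∀ s > (0 : ℝ), ∀ r ψ, Bmp r ψ → (k + 1 : ℕ) * r ^ 2 ≤ 1 / 128 →
  ∃ A₀ T : ℝ, ∃ C ≥ (0 : ℝ), ∀ A ≥ A₀, ∀ m ≥ (1 : ℝ), ∀ L > (0 : ℝ), ∃ Γ₀ : ℝ, ∀ Γ ≥ Γ₀,
  ∀ (Z : Type) [Mf0 (k + 1) Z] (γ : Fld (k + 1) Z) (β : Fin (k + 1) → Z → ℝ) (l p α : Z → ℝ)
    (D : Fin (k + 1) → Z → ℝ) (W w h V : Z → ℝ) (h₁ : ℝ), Zc γ β l p α D W w h V A m L Γ h₁ →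
    ∀ δ > (0 : ℝ), ∃ E : Fin (k + 1) → Z → ℝ, (∀ j, Smooth (E j)) ∧
      (∀ z, 5 / 4 < w z → ∀ j, E j z = 8 * m * D j z) ∧
      (∀ z, α z ≤ 0 ∨ 1 / 64 ≤ nsq D z → ∃ μ ≥ (1 : ℝ), ∀ j, E j z = μ * D j z) ∧
      Cst γ ψ E {z | w z ≤ 5 / 4 ∧ 1 / 2 ≤ α z} ≤ C * Ms s T A γ V l p {z | w z ≤ 11 / 8} + δ

end Vale.Agent.P223U
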