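import Vale.Agent.P223U.Step
import Vale.Agent.P223R.Rl
import Vale.Agent.P223D.Ni
import Vale.Agent.P223C.Nkt
import Vale.Agent.P223Z.Zc0
import Vale.Agent.P223Y.Zc

/-!
# P223U: `CUBE` (helper22)
-/

namespace Vale.Agent.P223U

theorem cube_add (k : ℕ) : CUBE (k + 2) := by
  induction k with
  | zero => exact step P223R.rl (P223C.nkt le_rfl _) P223D.trace P223D.nij P223Z.zc_zero
  | succ k ih =>
    exact step P223R.rl (P223C.nkt (by omega) _) P223D.trace P223D.nij (P223Y.zc ih)

/-- **CUBE** -/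
theorem cube {n : ℕ} (hn : 2 ≤ n) : CUBE n := by
  obtain ⟨k, rfl⟩ := Nat.exists_eq_add_of_le' hn
  exact cube_add k

end Vale.Agent.P223U
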