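import Vale.Agent.P223U.Ev1
import Vale.Agent.P223O.Tail
import Vale.Agent.P223G.Defs
import Vale.Agent.P210T.LStep
import Vale.Agent.P366H.Fn

/-!
# P223U: the event move (helper22)
-/

open Filter Topology Set Real
open scoped ContDiff
open Vale.Agent.P366M Vale.Agent.P366M.Gr Vale.Agent.P366M.Y.C Vale.Agent.P210G
open Vale.Agent.P210F.Al
open Vale.Agent.P210T (kv cc_kv kv_zero kv_const gb_const hv_congr vg_congr Rv_of_ev)
open Vale.Agent.P366H (s1 hd0 s1_nn s1_le s1_zero DD DD_ge sm_st)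
open Vale.Agent.P223G (EVT)

noncomputable section

namespace Vale.Agent.P223U

variable {n : ℕ} {X : Type} [Mf0 n X] {g : Fld n X} {v v₁ : Fin n → X → ℝ} {x : X}
  {β μ ϱ q w w' : X → ℝ}

theorem a2_ev (e : w =ᶠ[𝓝 x] w') : a2 g w x = a2 g w' x := by
  simp only [a2, normSq, hess_congr e, (ww_congr e).self_of_nhds,
    up_of_eq (gb_congr (g := g) e).self_of_nhds]

theorem gn_st (hϱ : Smooth ϱ) (a : ℝ) {t : ℝ} (h : ϱ x ≤ a + 1 → DD * gn g ϱ x ≤ t) (t0 : 0 ≤ t) :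
    gn g (fun y => smoothTransition (ϱ y - a)) x ≤ t := by
  rw [gn_comp (φ := fun t => smoothTransition (t - a)) ((hd0 _).comp_sub_const _ a) (hϱ.diff x)]
  rcases le_total (ϱ x) (a + 1) with k | k
  · exact (mul_le_mul_of_nonneg_right ((abs_of_nonneg (s1_nn _)).trans_le (s1_le _))
      (gn_nonneg _ _ _)).trans (h k)
  · rwa [s1_zero (.inr (by linarith)), abs_zero, zero_mul]

theorem evt0 (hn : 2 ≤ n) (hg : Met g) (hv' : CC ∞ v) (hv₁ : CC ∞ v₁) (hϱ : Smooth ϱ)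
    (hβ : Smooth β) (hμ : Smooth μ) {γ τ c a R t : ℝ} (γ0 : 0 < γ) (τ0 : 0 < τ) (R2 : 2 ≤ R)
    (t0 : 0 ≤ t) (t1 : t ^ 2 ≤ τ / 128) (t2 : t ≤ 1 / 8) (cE : IsCompact {x | ϱ x ≤ a + 6})
    (lc : ∀ x, a + 1 ≤ ϱ x → β =ᶠ[𝓝 x] fun _ => β x)
    (bd : ∀ x, ϱ x ≤ a + 6 → 0 ≤ μ x ∧ DD * gn g ϱ x ≤ t ∧ gn g β x ≤ c * q x ∧
      36 * gn g β x ≤ γ * exp (-(1 / 2) * μ x) * R ∧ 2 * τ ≤ γ * exp (-(1 / 2) * μ x) ∧
      Rv g v x - 1 + (exp (-(1 / 2) * μ x) * q x) ^ 2 + 3 / 4 * ip g μ μ x ≤ Rv g v₁ x) :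
    ∃ (w : X → ℝ) (v' : Fin n → X → ℝ), Smooth w ∧ CC ∞ v' ∧ (∀ x, a + 3 ≤ ϱ x → w x = β x) ∧
      (∀ x, (w x - β x) ^ 2 ≤ R) ∧ (∀ x, a + 6 < ϱ x → ∀ i, v' i x = v i x) ∧
      ∀ x, ϱ x ≤ a + 6 → Rv g v x - (2 + γ + (γ * c) ^ 2) + a2 g w x / 2 + γ * lw g w x -
        γ / 2 * μ x ≤ Rv (gb g 1 w) v' x := by
  have cϱ := hϱ.cont
  have R0 : 0 < R := by linarith
  have st : ∀ b, Smooth fun y => smoothTransition (ϱ y - b) := fun b =>
    sm_st.compM (CD.sub hϱ cd_const)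
  have gs : ∀ b ≤ a + 5, ∀ x, gn g (fun y => smoothTransition (ϱ y - b)) x ≤ t := fun b hb x =>
    gn_st hϱ b (fun k => (bd x (by linarith)).2.1) t0
  obtain ⟨χ₀, χ1, χ2, χ3, χ4⟩ := P210T.cutoff hϱ (a := a + 26 / 10) (b := a + 29 / 10) (by linarith)
  obtain ⟨κ, κ1, κ2, κ3, κ4⟩ := P210T.cutoff hϱ (a := a + 9 / 4) (b := a + 5 / 2) (by linarith)
  have sχ : Smooth fun y => 1 - χ₀ y := CD.sub cd_const χ1
  have cT : IsCompact (ϱ ⁻¹' Icc (a + 11 / 5) (a + 3)) := cE.of_isClosed_subset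
    (isClosed_Icc.preimage cϱ) fun x k => show ϱ x ≤ _ by linarith [k.2]
  obtain ⟨δ, δ0, -, hδ⟩ := P223O.tailA hg hv₁ sχ κ1 (fun x => ⟨by linarith [(χ2 x).2],
    by linarith [(χ2 x).1]⟩) κ2 cT one_pos
  obtain ⟨α, hα⟩ : ∃ α : X → ℝ, α = fun y => γ * exp (-(1 / 2) * μ y) := ⟨_, rfl⟩
  have sα : Smooth α := hα ▸ CD.mul cd_const (CD.exp (CD.mul cd_const hμ))
  have α0 : ∀ x, 0 < α x := fun x => by rw [hα]; positivity
  obtain ⟨B, B0, hB⟩ := P210Y.bd_cont cE (sα.cont.add (hg.cont_gn sα.one))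
  obtain ⟨A₀, -, hA₀⟩ := P223O.decayX hg hv₁ cT (isOpen_Ioo.preimage cϱ)
    (O := ϱ ⁻¹' Ioo (a + 2) (a + 4)) (fun x k => ⟨by linarith [k.1], by linarith [k.2]⟩) (2 * B)
    one_pos δ0
  obtain ⟨A, A₁, sA, A1, hA⟩ := spring hg τ0 (st (a + 1))
    (fun x => ⟨smoothTransition.nonneg _, smoothTransition.le_one _⟩) (fun x => by
      rw [← hg.gn_sq]
      exact (pow_le_pow_left₀ (gn_nonneg _ _ _) (gs _ (by linarith) x) 2).trans t1) A₀
  obtain ⟨u, su, hu⟩ := exL hn hg hv₁ R0 hβ sα sA α0 (fun x => (hA x).1) cE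
  have sZ : Smooth fun y => u y - β y := CD.sub su hβ
  have ev : ∀ {x} {b}, ϱ x < b → ∀ᶠ y in 𝓝 x, ϱ y < b := fun k =>
    cϱ.continuousAt.eventually (gt_mem_nhds k)
  have eZ : ∀ x, a + 1 ≤ ϱ x → (fun y => u y - β y) =ᶠ[𝓝 x] fun y => u y + -β x := fun x k =>
    (lc x k).mono fun y p => by simp only [p, sub_eq_add_neg]
  have eH : ∀ x, a + 1 ≤ ϱ x → hv g v₁ (fun y => u y - β y) x = hv g v₁ u x := fun x k => by
    rw [(hv_congr (eZ x k)).self_of_nhds, hv_shift]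
  have eO : ∀ x ∈ ϱ ⁻¹' Ioo (a + 2) (a + 4), hv g v₁ (fun y => u y - β y) x =
      (α x * xf R ((u x - β x) ^ 2) + A₁) * (u x - β x) := fun x k => by
    rw [eH x (by linarith [k.1]), (hu x (show ϱ x ≤ _ by linarith [k.2])).2,
      (hA x).2.2.1 (smoothTransition.one_of_one_le (by linarith [k.1]))]
  have dec := hA₀ A₁ A1 _ (fun y => α y * xf R ((u y - β y) ^ 2)) sZ fun x k => by
    have lt := (hu x (show ϱ x ≤ _ by linarith [k.2])).1
    have x1 := xf_ge (sq_nonneg _) lt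
    refine ⟨eO x k, mul_nonneg (α0 x).le (by linarith), fun z => ?_⟩
    have z2 : (u x - β x) ^ 2 ≤ 1 := (sq_le_one_iff_abs_le_one _).2 z
    have x2 : xf R ((u x - β x) ^ 2) ≤ 2 := by
      rw [xf, div_le_iff₀ (by linarith)]; linarith
    have b1 : α x + gn g α x ≤ B :=
      (le_abs_self _).trans (hB x (show ϱ x ≤ _ by linarith [k.2]))
    have b2 := gn_nonneg g α x
    have b3 := α0 x
    refine ⟨by nlinarith, ?_⟩
    have dZ := sZ.diff x
    obtain ⟨dx, d2⟩ := xf_dAt R0 dZ lt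
    rw [dn_congr .rfl (Eventually.mono ((isOpen_Ioo.preimage cϱ).mem_nhds k) eO),
      dn_mul (((sα.diff x).mul d2).add (dAt_const _)) dZ,
      dn_add ((sα.diff x).mul d2) (dAt_const _), dn_mul (sα.diff x) d2,
      dn_comp (v := fun y => (u y - β y) ^ 2) dx (dZ.pow 2), dn_pow2 dZ,
      show dn g _ (fun _ => A₁) x = 0 by rw [dn, ip_const_right, zero_div]]
    have p1 := (sg_nonneg hg _ x).trans (sg_le_dn hg (fun y => u y - β y) x)
    have p2 : |(u x - β x) * (xf R ((u x - β x) ^ 2) * dn g (fun y => u y - β y) α x)| ≤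
        1 * (2 * B) := by
      rw [abs_mul, abs_mul, abs_of_pos (by linarith : 0 < xf R _)]
      exact mul_le_mul z (mul_le_mul x2 ((abs_dn_le hg _ _ x).trans (by linarith)) (abs_nonneg _)
        zero_le_two) (by positivity) zero_le_one
    have p3 : 0 ≤ α x * (xf R ((u x - β x) ^ 2) ^ 2 / R) * (u x - β x) ^ 2 *
      dn g (fun y => u y - β y) (fun y => u y - β y) x := by positivity
    have p4 : 0 ≤ α x * xf R ((u x - β x) ^ 2) *
      dn g (fun y => u y - β y) (fun y => u y - β y) x := by positivity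
    linarith [neg_abs_le ((u x - β x) * (xf R ((u x - β x) ^ 2) * dn g (fun y => u y - β y) α x))]
  have main : ∀ x, ϱ x < a + 6 → Rv g v x - (1 + (γ * c) ^ 2) + a2 g u x + γ * lw g u x -
      γ / 2 * μ x ≤ Rv (gb g 1 u) (vg g v₁ u) x := fun x k => by
    obtain ⟨b1, -, b2, b3, b4, b5⟩ := bd x k.le
    have := ev_gain hg hv₁ γ0 su hβ hμ sA b1 R0 (hu x k.le).1 b2 b3 (hA x).1 (by
      rcases le_total (ϱ x) (a + 1) with p | p
      · rw [(hA x).2.1 (smoothTransition.zero_of_nonpos (by linarith)), zero_mul]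
      · rw [gn_congr (lc x p), gn_zero fun i => pd_const _ i x, mul_zero]) τ0 b4 (hA x).2.2.2
      ((ev k).mono fun y p => by simpa only [hα] using (hu y p.le).2)
    linarith
  obtain ⟨w, hw⟩ : ∃ w : X → ℝ, w = fun y => β y + (1 - χ₀ y) * (u y - β y) := ⟨_, rfl⟩
  have sw : Smooth w := hw ▸ CD.add hβ (CD.mul sχ sZ)
  have w1 : ∀ x, ϱ x < a + 26 / 10 → w =ᶠ[𝓝 x] u := fun x k =>
    (χ3 x k).mono fun y p => by simp [hw, p]
  have w2 : ∀ x, a + 3 ≤ ϱ x → w =ᶠ[𝓝 x] fun _ => β x := fun x k => by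
    filter_upwards [χ4 x (by linarith), lc x (by linarith)] with y p p'
    simp [hw, p, p']
  obtain ⟨ψ, hψ⟩ : ∃ ψ : X → ℝ, ψ = fun y => π / 2 * smoothTransition (ϱ y - (a + 4)) := ⟨_, rfl⟩
  have sψ : Smooth ψ := hψ ▸ CD.mul cd_const (st _)
  have v1 : ∀ x, ϱ x < a + 4 → ∀ i, (fun y => kv g v₁ κ w i y + sin (ψ y) ^ 2 * (v i y - v₁ i y))
      =ᶠ[𝓝 x] kv g v₁ κ w i := fun x k i => (ev k).mono fun y p => by
    simp [hψ, smoothTransition.zero_of_nonpos (show ϱ y - (a + 4) ≤ 0 by linarith)]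
  refine ⟨w, fun i y => kv g v₁ κ w i y + sin (ψ y) ^ 2 * (v i y - v₁ i y), sw,
    (cc_kv hg hv₁ κ1 sw).add (CC.smul (CD.pow (contDiff_sin.compM sψ) 2) (hv'.sub hv₁)),
    fun x k => (w2 x k).self_of_nhds, fun x => ?_, fun x k i => ?_, fun x k => ?_⟩
  · rcases le_total (ϱ x) (a + 6) with k | k
    · rw [hw, add_sub_cancel_left, mul_pow]
      exact (mul_le_of_le_one_left (sq_nonneg _) (pow_le_one₀ (by linarith [(χ2 x).2])
        (by linarith [(χ2 x).1]))).trans (hu x k).1.le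
    · rw [(w2 x (by linarith)).self_of_nhds]
      simpa using R0.le
  · simp [(kv_const (w2 x (by linarith)) i).self_of_nhds, hψ,
      smoothTransition.one_of_one_le (show 1 ≤ ϱ x - (a + 4) by linarith)]
  obtain ⟨b1, -, -, -, -, b5⟩ := bd x k
  have b6 : Rv g v x - 1 ≤ Rv g v₁ x := by
    linarith [hg.ip_nonneg μ x, sq_nonneg (exp (-(1 / 2) * μ x) * q x)]
  have b7 := mul_nonneg γ0.le b1
  have b8 := sq_nonneg (γ * c)
  have m1 : ϱ x < a + 26 / 10 → Rv g v x - (1 + γ + (γ * c) ^ 2) + a2 g w x / 2 + γ * lw g w x -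
      γ / 2 * μ x ≤ Rv (gb g 1 u) (vg g v₁ u) x := fun p => by
    rw [a2_ev (w1 x p), lw, (ww_congr (w1 x p)).self_of_nhds, ← lw]
    linarith [main x (by linarith), a2_nonneg hg su x]
  rcases lt_or_ge (ϱ x) (a + 11 / 5) with p | p
  · rw [Rv_of_ev (gb_congr (w1 x (by linarith))) fun i => (v1 x (by linarith) i).trans
      ((kv_zero (κ3 x (by linarith)) i).trans (vg_congr (w1 x (by linarith)) i))]
    linarith [m1 (by linarith)]
  rcases le_or_gt (ϱ x) (a + 3) with p' | p'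
  · obtain ⟨d1, d2, d3⟩ := dec x ⟨p, p'⟩
    have l1 := lc x (by linarith)
    obtain ⟨e1, e2⟩ := hδ x ⟨p, p'⟩ ((lt_or_ge (ϱ x) (a + 26 / 10)).imp
      (fun k => (χ3 x k).mono fun y p => by simp [p]) fun k => κ4 x (by linarith)) u w (β x) su sw
      (l1.mono fun y p => by simp only [hw, p]) d1 (by
        rwa [gn_congr (eZ x (by linarith)), gn_of_pd_eq fun i => pd_add_const _ i] at d2)
      (by rwa [eH x (by linarith)] at d3)
    rw [Rv_congr (v1 x (by linarith))]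
    refine le_trans ?_ e2
    have e3 : lw g w x ≤ 1 := (log_le_sub_one_of_pos (w_pos hg w x)).trans (by linarith [w_le hg w x])
    have e4 := mul_le_mul_of_nonneg_left e3 γ0.le
    rcases lt_or_ge (ϱ x) (a + 26 / 10) with k | k
    · have e5 := mul_le_mul_of_nonneg_left (m1 k) (sub_nonneg.2 (κ2 x).2)
      have e6 := mul_le_mul_of_nonneg_left (show Rv g v x - (1 + γ + (γ * c) ^ 2) + a2 g w x / 2 +
        γ * lw g w x - γ / 2 * μ x ≤ Rv g v₁ x + a2 g w x / 2 by linarith) (κ2 x).1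
      linarith
    · rw [(κ4 x (by linarith)).self_of_nhds]
      linarith
  have e0 := w2 x p'.le
  have e1 := Rv_sin hg (sψ.diff x) (dV_sh hg hv' x) (dV_sh hg hv₁ x)
  have e2 : ip g ψ ψ x ≤ 1 / 4 := by
    rw [← hg.gn_sq, hψ, gn_of_pd (pd_const_mul _), abs_of_pos (by positivity)]
    refine (pow_le_pow_left₀ (mul_nonneg (by positivity) (gn_nonneg _ _ _)) (mul_le_mul
      (show π / 2 ≤ 2 by linarith [pi_le_four]) ((gs _ (by linarith) x).trans t2)
      (gn_nonneg _ _ _) zero_le_two) 2).trans (by norm_num)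
  rw [Rv_of_ev (gb_const e0) (v' := fun i y => sin (ψ y) ^ 2 * v i y + cos (ψ y) ^ 2 * v₁ i y)
    fun i => (kv_const (g := g) (v := v₁) (κ := κ) e0 i).mono fun y p => by
      simp only [p, cos_sq']; ring, a2_ev e0, lw, (ww_congr e0).self_of_nhds]
  have e3 := mul_le_mul_of_nonneg_left b6 (sq_nonneg (cos (ψ x)))
  rw [cos_sq'] at e1 e3
  have e4 : a2 g (fun _ => β x) x = 0 := by simp [a2, normSq, hess_const]
  have e5 : ww g 1 (fun _ => β x) x = 1 := by simp [ww, ip_const_left]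
  rw [e4, e5, log_one]
  linarith [sq_nonneg (sin (ψ x))]

/-- a smooth positive part -/
def pf (s : ℝ) : ℝ := s * smoothTransition (40 * s)

theorem sm_pf : ContDiff ℝ ∞ pf := contDiff_id.mul (sm_st.comp (contDiff_const.mul contDiff_id))

theorem pf_der (s : ℝ) : ∃ d, |d| ≤ 2 * DD ∧ HasDerivAt pf d s := by
  refine ⟨1 * smoothTransition (40 * s) + s * (s1 (40 * s) * (40 * 1)), ?_,
    (hasDerivAt_id' s).mul ((hd0 _).comp s ((hasDerivAt_id' s).const_mul 40))⟩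
  have h1 : 0 ≤ s * (s1 (40 * s) * (40 * 1)) ∧ s * (s1 (40 * s) * (40 * 1)) ≤ DD := by
    by_cases k : 40 * s ≤ 0 ∨ 1 ≤ 40 * s
    · rw [s1_zero k]; simpa using zero_le_one.trans DD_ge
    · rw [not_or, not_le, not_le] at k
      exact ⟨mul_nonneg (by linarith) (by linarith [s1_nn (40 * s)]),
        by nlinarith [s1_nn (40 * s), s1_le (40 * s)]⟩
  refine abs_le.2 ⟨?_, ?_⟩ <;>
    linarith [smoothTransition.nonneg (40 * s), smoothTransition.le_one (40 * s), DD_ge]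

theorem pf_neg {s : ℝ} (h : s ≤ 0) : pf s = 0 := by
  rw [pf, smoothTransition.zero_of_nonpos (by linarith), mul_zero]

theorem pf_pos {s : ℝ} (h : 1 / 40 ≤ s) : pf s = s := by
  rw [pf, smoothTransition.one_of_one_le (by linarith), mul_one]

theorem pf_bd {s : ℝ} (h : 0 ≤ s) : s - 1 / 40 ≤ pf s ∧ pf s ≤ s := by
  refine ⟨?_, mul_le_of_le_one_right h (smoothTransition.le_one _)⟩
  rcases le_total s (1 / 40) with k | k
  · linarith [mul_nonneg h (smoothTransition.nonneg (40 * s)), show pf s = s * _ from rfl]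
  · linarith [pf_pos k]

theorem Lv_ev (e : w =ᶠ[𝓝 x] w') : Lv g v w x = Lv g v w' x := by
  simp only [Lv, lap_congr e, iv, df, pd_congr e]

/-- **EVT** with the tracking constant `1 / 10` -/
theorem evt' (hn : 2 ≤ n) {γ : ℝ} (γ0 : 0 < γ) : ∃ C : ℝ, ∀ r ≥ (1 : ℝ), ∀ D : ℝ, ∃ L₁ > (0 : ℝ),
    ∀ L ≥ L₁, ∀ (X : Type) [Mf0 n X] (g : Fld n X) (v : Fin n → X → ℝ) (θ ζ : X → ℝ), Met g →
    CC ∞ v → Smooth θ → Smooth ζ → IsCompact {x | |θ x| ≤ r + 6} →
    (∀ x, |θ x| ≤ r + 6 → 1 ≤ ζ x ∧ ζ x ≤ D ∧ L * gn g θ x ≤ D ∧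
      Lv g v ζ x ≤ ζ x - (L * gn g θ x) ^ 2) →
    ∃ (w : X → ℝ) (v' : Fin n → X → ℝ), Smooth w ∧ CC ∞ v' ∧ (∀ x, r + 3 ≤ θ x → w x = L * r) ∧
      (∀ x, θ x ≤ -(r + 3) → w x = -(L * r)) ∧ (∀ x, |w x - L * P223G.cl r (θ x)| ≤ L / 10) ∧
      (∀ x, r + 6 < |θ x| → ∀ i, v' i x = v i x) ∧
      ∀ x, |θ x| ≤ r + 6 → Rv g v x - C + a2 g w x / 2 + γ * lw g w x - γ / 2 * Real.log (ζ x) ≤
        Rv (gb g 1 w) v' x := by
  refine ⟨2 + γ + (γ * (5 * DD)) ^ 2, fun r r1 D₀ => ?_⟩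
  have hD := DD_ge
  obtain ⟨D, D1, D2⟩ : ∃ D ≥ (1 : ℝ), D₀ ≤ D := ⟨max 1 D₀, le_max_left _ _, le_max_right _ _⟩
  obtain ⟨t, t0, t1, t2⟩ : ∃ t > (0 : ℝ), t ^ 2 ≤ γ / (2 * D) / 128 ∧ t ≤ 1 / 8 := by
    have : 0 < γ / (2 * D) := by positivity
    refine ⟨min (1 / 8) (γ / (2 * D) / 16), by positivity, ?_, min_le_left _ _⟩
    linarith [mul_le_mul (min_le_left (1 / 8) (γ / (2 * D) / 16))
      (min_le_right (1 / 8) (γ / (2 * D) / 16)) (by positivity) (by norm_num)]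
  obtain ⟨R, hR⟩ : ∃ R, R = 2 + 36 * (5 * DD * D) * D / γ := ⟨_, rfl⟩
  have R2 : 2 ≤ R := hR ▸ le_add_of_nonneg_right (by positivity)
  have p0 : 0 < DD * (4 * DD * D) / t := by positivity
  refine ⟨20 * R + DD * (4 * DD * D) / t, by linarith,
    fun L hL X _ g v θ ζ hg hv' sθ sζ cE bd => ?_⟩
  have L0 : 0 < L := by linarith
  have cθ := sθ.cont
  obtain ⟨φ, φ1, -, φ2, φ3⟩ := P210C.clamp1 (show (-(1 / 2) : ℝ) < 0 by norm_num)
  obtain ⟨ξ, hξ⟩ : ∃ ξ : X → ℝ, ξ = fun y => -φ (-ζ y) := ⟨_, rfl⟩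
  have sξ : Smooth ξ := hξ ▸ CD.neg (φ1.compM (CD.neg sζ))
  have ξ0 : ∀ x, 0 < ξ x := fun x => by rw [hξ]; exact neg_pos.2 (φ3 _)
  have ξ1 : ∀ x, 1 ≤ ζ x → ξ =ᶠ[𝓝 x] ζ := fun x k =>
    (sζ.cont.continuousAt.eventually (lt_mem_nhds (show 1 / 2 < ζ x by linarith))).mono
      fun y p => by rw [hξ]; simp only [φ2 _ (neg_le_neg p.le), neg_neg]
  have sμ : Smooth fun y => log (ξ y) := CD.log sξ fun x => (ξ0 x).ne'
  obtain ⟨ϱ, hϱ⟩ : ∃ ϱ : X → ℝ, ϱ = fun y => pf (θ y) + pf (-θ y) := ⟨_, rfl⟩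
  obtain ⟨β, hβ⟩ : ∃ β : X → ℝ, β = fun y => L * (θ y - pf (θ y - r) + pf (-θ y - r)) := ⟨_, rfl⟩
  have ϱ1 : ∀ x, ϱ x = |θ x| ∨ ϱ x ≤ 1 ∧ |θ x| ≤ 1 := fun x => by
    simp only [hϱ]
    rcases abs_cases (θ x) with k | k <;> rw [k.1]
    · rw [pf_neg (neg_nonpos.2 k.2), add_zero]
      exact (le_total 1 (θ x)).imp (fun p => pf_pos (by linarith))
        fun p => ⟨(pf_bd k.2).2.trans p, p⟩
    · rw [pf_neg k.2.le, zero_add]
      exact (le_total 1 (-θ x)).imp (fun p => pf_pos (by linarith))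
        fun p => ⟨(pf_bd (by linarith)).2.trans p, p⟩
  have ϱ2 : ∀ x, ϱ x ≤ r + 6 ↔ |θ x| ≤ r + 6 := fun x => by
    rcases ϱ1 x with k | k
    · rw [k]
    · exact iff_of_true (by linarith) (by linarith)
  have β1 : ∀ x, r + 1 / 40 ≤ θ x → β x = L * r := fun x k => by
    simp only [hβ]
    rw [pf_pos (by linarith), pf_neg (by linarith)]; ring
  have β2 : ∀ x, θ x ≤ -(r + 1 / 40) → β x = -(L * r) := fun x k => by
    simp only [hβ]
    rw [pf_neg (by linarith), pf_pos (by linarith)]; ring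
  obtain ⟨w, v', s1, s2, s3, s4, s5, s6⟩ := evt0 (ϱ := ϱ) (β := β) (q := fun x => L * gn g θ x)
    (v₁ := fun i y => v i y + -(1 / 2) * pd i (fun z => log (ξ z)) y) (c := 5 * DD) (a := r) hn hg
    hv' (hv'.add (CC.smul cd_const sμ.cc_pd))
    (hϱ ▸ CD.add (sm_pf.compM sθ) (sm_pf.compM (CD.neg sθ)))
    (hβ ▸ CD.mul cd_const (CD.add (CD.sub sθ (sm_pf.compM (CD.sub sθ cd_const)))
      (sm_pf.compM (CD.sub (CD.neg sθ) cd_const)))) sμ γ0 (τ := γ / (2 * D)) (by positivity) R2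
    t0.le t1 t2 (by simpa only [ϱ2] using cE) (fun x k => by
      rcases le_abs.1 (show r + 1 ≤ |θ x| by rcases ϱ1 x with p | p <;> linarith) with p | p
      · exact (cθ.continuousAt.eventually (lt_mem_nhds (show r + 1 / 2 < θ x by linarith))).mono
          fun y p' => by rw [β1 y (by linarith), β1 x (by linarith)]
      · exact (cθ.continuousAt.eventually (gt_mem_nhds (show θ x < -(r + 1 / 2) by linarith))).mono
          fun y p' => by rw [β2 y (by linarith), β2 x (by linarith)]) fun x k => by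
      obtain ⟨b1, b2, b3, b4⟩ := bd x ((ϱ2 x).1 k)
      have e := ξ1 x b1
      have e0 := e.self_of_nhds
      have g0 := gn_nonneg g θ x
      have μ0 : 0 ≤ log (ξ x) := log_nonneg (e0 ▸ b1)
      have α1 : D⁻¹ ≤ exp (-(1 / 2) * log (ξ x)) := by
        refine le_trans ?_ (exp_le_exp.2 (show -log (ξ x) ≤ _ by linarith))
        rw [exp_neg, exp_log (ξ0 x)]
        exact inv_anti₀ (ξ0 x) (by linarith)
      have α2 : exp (-(1 / 2) * log (ξ x)) ^ 2 = (ξ x)⁻¹ := by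
        rw [← exp_nat_mul, ← exp_log (inv_pos.2 (ξ0 x)), log_inv]; congr 1; push_cast; ring
      have gβ : gn g β x ≤ 5 * DD * (L * gn g θ x) := by
        obtain ⟨d1, k1, k2⟩ := pf_der (θ x - r)
        obtain ⟨d2, k3, k4⟩ := pf_der (-θ x - r)
        rw [hβ, gn_comp (φ := fun t => L * (t - pf (t - r) + pf (-t - r))) ((((hasDerivAt_id' _).sub
          (k2.comp_sub_const _ r)).add (k4.comp (h := fun t => -t - r) _
            ((hasDerivAt_neg' _).sub_const r))).const_mul L)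
          (sθ.diff x), abs_mul, abs_of_pos L0]
        have : |1 - d1 + d2 * -1| ≤ 5 * DD := abs_le.2
          ⟨by linarith [abs_le.1 k1, abs_le.1 k3], by linarith [abs_le.1 k1, abs_le.1 k3]⟩
        linarith [mul_le_mul_of_nonneg_left this (mul_nonneg L0.le g0)]
      refine ⟨μ0, ?_, gβ, ?_, ?_, ?_⟩
      · obtain ⟨d1, k1, k2⟩ := pf_der (θ x)
        obtain ⟨d2, k3, k4⟩ := pf_der (-θ x)
        rw [hϱ, gn_comp (φ := fun t => pf t + pf (-t)) (k2.add (k4.comp _ (hasDerivAt_neg' _)))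
          (sθ.diff x)]
        have k5 : |d1 + d2 * -1| ≤ 4 * DD := abs_le.2
          ⟨by linarith [abs_le.1 k1, abs_le.1 k3], by linarith [abs_le.1 k1, abs_le.1 k3]⟩
        have k6 : DD * (4 * DD * D) ≤ L * t := (div_le_iff₀ t0).1 (by linarith)
        refine le_of_mul_le_mul_left (le_trans ?_ k6) L0
        linarith [mul_le_mul_of_nonneg_left (mul_le_mul k5 (b3.trans D2) (by positivity)
          (by positivity)) (zero_le_one.trans hD)]
      · have k1 : 36 * (5 * DD * D) ≤ γ * D⁻¹ * R := by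
          have : γ * D⁻¹ * R = γ * D⁻¹ * 2 + 36 * (5 * DD * D) := by rw [hR]; field_simp
          have : 0 < γ * D⁻¹ := by positivity
          linarith
        linarith [mul_le_mul_of_nonneg_left (b3.trans D2) (by positivity : 0 ≤ 5 * DD),
          mul_le_mul_of_nonneg_left α1 (by positivity : 0 ≤ γ * R)]
      · exact le_trans (le_of_eq (by field_simp)) (mul_le_mul_of_nonneg_left α1 γ0.le)
      · have k1 : ip g (fun z => log (ξ z)) (fun z => log (ξ z)) x = ip g ξ ξ x / ξ x ^ 2 := by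
          rw [ip_comp (hasDerivAt_log (ξ0 x).ne') (hasDerivAt_log (ξ0 x).ne') (sξ.diff x)
            (sξ.diff x)]
          field_simp
        have k2 : Lv g v ξ x / ξ x ≤ 1 - (ξ x)⁻¹ * (L * gn g θ x) ^ 2 := by
          rw [div_le_iff₀ (ξ0 x), Lv_ev e, sub_mul, mul_right_comm, inv_mul_cancel₀ (ξ0 x).ne', e0]
          linarith
        rw [Rv_add_log hg (dV_sh hg hv' x) (sξ.c2 x) (ξ0 x), k1, mul_pow, α2]
        linarith
  have ϱ3 : ∀ x, r + 3 ≤ |θ x| → w x = β x := fun x k =>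
    s3 x (by rcases ϱ1 x with p | p <;> linarith)
  refine ⟨w, v', s1, s2, fun x k => (ϱ3 x (le_abs.2 (.inl k))).trans (β1 x (by linarith)),
    fun x k => (ϱ3 x (le_abs.2 (.inr (by linarith)))).trans (β2 x (by linarith)), fun x => ?_,
    fun x k => s5 x (not_le.1 fun p => k.not_ge ((ϱ2 x).1 p)), fun x k => ?_⟩
  · have k1 : |w x - β x| ≤ L / 20 := abs_le_of_sq_le_sq' ((s4 x).trans (by nlinarith))
      (by linarith) |> abs_le.2
    have k2 : |θ x - pf (θ x - r) + pf (-θ x - r) - P223G.cl r (θ x)| ≤ 1 / 40 := by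
      rw [P223G.cl, abs_le]
      rcases le_total r (θ x) with p | p
      · rw [min_eq_left p, max_eq_right (by linarith), pf_neg (s := -θ x - r) (by linarith)]
        constructor <;> linarith [pf_bd (sub_nonneg.2 p)]
      rw [min_eq_right p, pf_neg (sub_nonpos.2 p)]
      rcases le_total (θ x) (-r) with p' | p'
      · rw [max_eq_left p']
        constructor <;> linarith [pf_bd (show 0 ≤ -θ x - r by linarith)]
      · rw [max_eq_right p', pf_neg (by linarith)]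
        constructor <;> linarith
    have k3 := mul_le_mul_of_nonneg_left k2 L0.le
    rw [← abs_of_pos L0, ← abs_mul, abs_of_pos L0, mul_sub] at k3
    simp only [hβ] at k1
    linarith [abs_sub_le (w x) (L * (θ x - pf (θ x - r) + pf (-θ x - r))) (L * P223G.cl r (θ x))]
  · rw [← (ξ1 x (bd x k).1).self_of_nhds]
    exact s6 x ((ϱ2 x).2 k)

/-- **EVT** -/
theorem evt (hn : 2 ≤ n) : EVT n := fun γ γ0 => (evt' hn γ0).imp fun C h r r1 D =>
  (h r r1 D).imp fun L₁ h L hL X _ g v θ ζ a b c d e f => by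
    obtain ⟨w, v', s1, s2, s3, s4, s5, s6⟩ := h.2 L hL X g v θ ζ a b c d e f
    exact ⟨w, v', s1, s2, s3, s4, fun x => (s5 x).trans (by linarith [h.1]), s6⟩

end Vale.Agent.P223U
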