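import Vale.Agent.P223U.Defs
import Vale.Agent.P223D.Jd

/-!
# P223U: the new map on the ambient manifold (helper22)
-/

open Filter Topology Set MeasureTheory Real
open scoped ContDiff
open Vale.Agent.P366M Vale.Agent.P210G
open Vale.Agent.P366H (s1 s1_nn s1_zero hd0 sm_st sm_s1)
open Vale.Agent.P223Y (Jd)
open Fin (last)

noncomputable section

namespace Vale.Agent.P223U

theorem Bmp.lt {r : ℝ} {ψ : ℝ → ℝ} (h : Bmp r ψ) {t : ℝ} (k : ψ t ≠ 0) : |t| < r :=
  not_le.1 fun q => k (h.supp t q)

theorem Bmp.sum_le {r : ℝ} {ψ : ℝ → ℝ} (h : Bmp r ψ) {k : ℕ} {y : Fin k → ℝ}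
    (q : ∏ j, ψ (y j) ≠ 0) : ∑ j, y j ^ 2 ≤ k * r ^ 2 := by
  simpa using Finset.sum_le_card_nsmul Finset.univ (fun j => y j ^ 2) (r ^ 2) fun j _ =>
    sq_le_sq' (abs_lt.1 (h.lt (Finset.prod_ne_zero_iff.1 q j (Finset.mem_univ j)))).1.le
      (abs_lt.1 (h.lt (Finset.prod_ne_zero_iff.1 q j (Finset.mem_univ j)))).2.le

/-- **DEF** -/
theorem defo : DEF := by
  intro r ψ hψ r1
  have d : ∀ t, HasDerivAt (fun t => 2 * smoothTransition ((t + 1) / 2) - 1) (s1 ((t + 1) / 2)) t :=
    fun t => ((((hd0 _).comp t (((hasDerivAt_id t).add_const 1).div_const 2)).const_mul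
      2).sub_const 1).congr_deriv (by simp only [id]; ring)
  have c1 : Continuous fun t => s1 ((t + 1) / 2) := sm_s1.continuous.comp (by fun_prop)
  have sp : Function.support (fun t => ψ (2 * smoothTransition ((t + 1) / 2) - 1) *
      s1 ((t + 1) / 2)) ⊆ Ioc (-1) 1 := fun t k => by
    by_contra q
    exact k (mul_eq_zero_of_right _ (s1_zero ((not_and_or.1 q).imp
      (fun a => by linarith [not_lt.1 a]) fun a => by linarith [not_le.1 a])))
  refine ⟨fun t => ψ (2 * smoothTransition ((t + 1) / 2) - 1) * s1 ((t + 1) / 2),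
    (hψ.cont.comp (continuous_iff_continuousAt.2 fun t => (d t).continuousAt)).mul c1,
    .intro' isCompact_Icc isClosed_Icc fun t k => Function.notMem_support.1 fun q =>
      k (Ioc_subset_Icc_self (sp q)), fun t => mul_nonneg (hψ.nn _) (s1_nn _), ?_,
    fun k X _ g G E u hr sG sE su H => ?_⟩
  · have e := intervalIntegral.integral_eq_integral_of_support_subset (μ := volume) (f := ψ)
      (a := -1) (b := 1) fun t k =>
        ⟨by linarith [(abs_lt.1 (hψ.lt k)).1], by linarith [(abs_lt.1 (hψ.lt k)).2]⟩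
    have := intervalIntegral.integral_comp_mul_deriv (a := -1) (b := 1) (fun t _ => d t)
      c1.continuousOn hψ.cont
    norm_num at this
    rw [← intervalIntegral.integral_eq_integral_of_support_subset sp, this, e, hψ.int]
  have st : ∀ {w : X → ℝ}, Smooth w → Smooth fun x => smoothTransition (w x) := fun hw =>
    cd_of_cAt le_rfl fun x => sm_st.contDiffAt.compM (CD.contDiffAt hw)
  have sσ := st (CD.sub su (cd_const (c := (1 : ℝ))))
  have k0 : (0 : ℝ) ≤ k := Nat.cast_nonneg k
  refine ⟨Fin.snoc (α := fun _ => X → ℝ) (fun j x => (1 - smoothTransition (u x - 1)) * E j x +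
    smoothTransition (u x - 1) * G j.castSucc x) fun x => (1 - smoothTransition (u x - 1)) *
      (2 * smoothTransition ((u x + 1) / 2) * smoothTransition (4 * G (last k) x + 1 / 2) - 1) +
      smoothTransition (u x - 1) * G (last k) x, fun j => ?_, fun x hx j => ?_, fun x hx q => ?_⟩
  · refine Fin.lastCases ?_ (fun j => ?_) j
    · rw [Fin.snoc_last]
      exact CD.add (CD.mul (CD.sub cd_const sσ) (CD.sub (CD.mul (CD.mul cd_const (st (CD.div_const
        (CD.add su cd_const) 2))) (st (CD.add (CD.mul cd_const (sG _)) cd_const))) cd_const))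
        (CD.mul sσ (sG _))
    · rw [Fin.snoc_castSucc]
      exact CD.add (CD.mul (CD.sub cd_const sσ) (sE j)) (CD.mul sσ (sG _))
  · refine Fin.lastCases ?_ (fun j => ?_) j <;>
      simp [smoothTransition.one_of_one_le (show 1 ≤ u x - 1 by linarith)]
  rw [Fin.prod_univ_castSucc] at q ⊢
  simp only [Fin.snoc_castSucc, Fin.snoc_last] at q ⊢
  have q1 := hψ.sum_le (left_ne_zero_of_mul q)
  obtain ⟨q2, q3⟩ := abs_lt.1 (hψ.lt (right_ne_zero_of_mul q))
  have r2 : r ≤ 1 / 8 := by nlinarith [sq_nonneg r]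
  have σ0 := smoothTransition.nonneg (u x - 1)
  have σ1 := smoothTransition.le_one (u x - 1)
  have a1 : -1 < u x := not_le.1 fun a => by
    rw [smoothTransition.zero_of_nonpos (x := u x - 1) (by linarith),
      smoothTransition.zero_of_nonpos (x := (u x + 1) / 2) (by linarith)] at q2
    linarith
  have a2 : 1 / 4 < G (last k) x := by
    have := not_le.1 fun a => (H x (abs_le.2 ⟨by linarith, hx⟩) a _ ⟨σ0, σ1⟩).not_ge
      (q1.trans (by nlinarith [sq_nonneg r]))
    refine (lt_abs.1 this).resolve_right fun a => ?_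
    rw [smoothTransition.zero_of_nonpos (x := 4 * G (last k) x + 1 / 2) (by linarith)] at q2
    nlinarith
  have a3 : u x < 1 := not_le.1 fun a => by
    rw [smoothTransition.one_of_one_le (x := 4 * G (last k) x + 1 / 2) (by linarith),
      smoothTransition.one_of_one_le (x := (u x + 1) / 2) (by linarith)] at q3
    nlinarith
  have ev : ∀ᶠ y in 𝓝 x, smoothTransition (u y - 1) = 0 ∧
      smoothTransition (4 * G (last k) y + 1 / 2) = 1 := by
    filter_upwards [su.cont.continuousAt.eventually (gt_mem_nhds a3),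
      (sG _).cont.continuousAt.eventually (lt_mem_nhds a2)] with y b1 b2
    exact ⟨smoothTransition.zero_of_nonpos (by linarith),
      smoothTransition.one_of_one_le (by linarith)⟩
  refine ⟨abs_le.2 ⟨a1.le, a3.le⟩, a2.le, ?_⟩
  rw [P223D.Jd_scale (f' := Fin.snoc (α := fun _ => X → ℝ) E u)
    (c := Fin.snoc (α := fun _ => ℝ) (fun _ => 1) (s1 ((u x + 1) / 2))) fun j i => ?_,
    Fin.prod_univ_castSucc, abs_mul]
  · simp only [Fin.snoc_castSucc, Fin.snoc_last, ev.self_of_nhds.1, ev.self_of_nhds.2,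
      Finset.prod_const_one, one_mul, abs_of_nonneg (s1_nn _), sub_zero, zero_mul, add_zero, mul_one]
    ring
  · refine Fin.lastCases ?_ (fun j => ?_) j <;> simp only [Fin.snoc_castSucc, Fin.snoc_last]
    · rw [← pd_comp (d _) (su.diff x)]
      exact pd_congr (ev.mono fun y k => by simp only [k.1, k.2]; ring) i
    · rw [one_mul]
      exact pd_congr (ev.mono fun y k => by simp only [k.1]; ring) i

end Vale.Agent.P223U
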