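import Vale.Agent.P210F.Step
import Vale.Agent.P210K.Tr
import Vale.Agent.P210L.Lbar
import Vale.Agent.P210Y.Jac

/-!
# P223U: the event move; existence and the gain at a point (helper22)
-/

open Filter Topology Set Real
open scoped ContDiff
open Vale.Agent.P366M Vale.Agent.P366M.Gr Vale.Agent.P366M.Y.C Vale.Agent.P210G
open Vale.Agent.P210C Vale.Agent.P210F.Al
open Vale.Agent.P366D (smooth_comp)

noncomputable section

namespace Vale.Agent.P223U

variable {n : ℕ} {X : Type} [Mf0 n X] {g : Fld n X} {v : Fin n → X → ℝ} {x : X}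
  {β a A w μ : X → ℝ} {R : ℝ}

/-- the solution of the equation with a simple pole, on a closed manifold -/
theorem exA [CompactSpace X] (hn : 2 ≤ n) (hg : Met g) (hv' : CC ∞ v) (hR : 0 < R) (hβ : Smooth β)
    (ha : Smooth a) (hA : Smooth A) (a0 : ∀ x, 0 < a x) (A0 : ∀ x, 0 ≤ A x) :
    ∃ w, Smooth w ∧ ∀ x, (w x - β x) ^ 2 < R ∧
      hv g v w x = (a x * xf R ((w x - β x) ^ 2) + A x) * (w x - β x) := by
  obtain ⟨x0⟩ : Nonempty X := inferInstance
  obtain ⟨τ, hτ, a1⟩ := isCompact_univ.exists_forall_le' ha.cont.continuousOn (a := 0)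
    fun x _ => a0 x
  obtain ⟨C, C0, h₁⟩ := P210Y.bd_cont isCompact_univ (sm_hv hg hv' hβ).cont
  obtain ⟨B, B0, h₃⟩ := P210Y.bd_cont isCompact_univ hβ.cont
  simp only [mem_univ, forall_const] at a1 h₁ h₃
  obtain ⟨s, s0, rfl⟩ : ∃ s > (0 : ℝ), R = s ^ 2 := ⟨√R, sqrt_pos.2 hR, (sq_sqrt hR.le).symm⟩
  obtain ⟨δ, δ0, δ1, δ2⟩ : ∃ δ > (0 : ℝ), δ ≤ s / 2 ∧ δ * (4 * (C + 1)) ≤ τ * s ^ 2 :=
    ⟨min (s / 2) (τ * s ^ 2 / (4 * (C + 1))), by positivity, min_le_left _ _,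
      (le_div_iff₀ (by positivity)).1 (min_le_right _ _)⟩
  have r1 : (s - δ) ^ 2 < s ^ 2 := by nlinarith
  obtain ⟨κ, κ1, κ2, κ3, κ4⟩ := clamp1 r1
  set f : ℝ → ℝ := fun t => xf (s ^ 2) (κ t) with hf
  have f1 : ContDiff ℝ ∞ f := contDiff_const.div (contDiff_const.sub κ1) fun t => by linarith [κ4 t]
  have f2 : Monotone f := fun a b h => xf_mono hR.le (κ2 h) (κ4 b)
  have f3 : ∀ t, 0 ≤ t → 1 ≤ f t := fun t ht =>
    xf_ge ((κ3 0 (sq_nonneg _)).ge.trans (κ2 ht)) (κ4 t)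
  set H : X → ℝ → ℝ → ℝ := fun x t _ => (a x * f ((t - β x) ^ 2) + A x) * (t - β x) with hH
  have H1 : SmH H univ := (((smH_x ha).mul (((smH_t.sub (smH_x hβ)).pow 2).comp
    fun _ _ _ _ => f1.contDiffAt)).add (smH_x hA)).mul (smH_t.sub (smH_x hβ))
  have H0 : ∀ x t, 0 ≤ t → τ ≤ a x * f t + A x := fun x t ht => by
    nlinarith [f3 t ht, A0 x, a1 x, a0 x]
  have H2 : ∀ x (u : ℝ), Monotone fun t => H x t u - τ * t := fun x u p q h => by
    have := mono_odd (k := fun t => a x * f t + A x - τ) (fun t ht => by linarith [H0 x t ht])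
      (fun p q h => by linarith [mul_le_mul_of_nonneg_left (f2 h) (a0 x).le])
      (sub_le_sub_right h (β x))
    simp only [hH] at this ⊢
    linarith
  obtain ⟨w, w1, -, w2⟩ := capV' hn hg hv' (a := -B) (b := B) (H := H) (by linarith) hτ H1
    (fun x u _ => H2 x u) (fun x => mul_nonpos_of_nonneg_of_nonpos
      (hτ.le.trans (H0 x _ (sq_nonneg _))) (by linarith [neg_abs_le (β x), h₃ x]))
    fun x => mul_nonneg (hτ.le.trans (H0 x _ (sq_nonneg _))) (by linarith [le_abs_self (β x), h₃ x])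
  have bar : ∀ x, C ≤ (a x * f ((s - δ) ^ 2) + A x) * (s - δ) := fun x => by
    have a2 : s / (2 * δ) ≤ f ((s - δ) ^ 2) := by
      simp only [hf, κ3 _ le_rfl, xf]
      rw [div_le_div_iff₀ (by positivity) (by linarith)]
      nlinarith [mul_pos s0 (mul_pos δ0 δ0)]
    have a4 : C ≤ τ * (s / (2 * δ)) * (s / 2) := by
      rw [show τ * (s / (2 * δ)) * (s / 2) = τ * s ^ 2 / (δ * 4) by field_simp; ring,
        le_div_iff₀ (by positivity)]
      linarith
    have a5 := mul_le_mul (a1 x) a2 (by positivity) (a0 x).le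
    exact a4.trans (mul_le_mul (by linarith [A0 x]) (by linarith) (by positivity)
      (hτ.le.trans (H0 x _ (sq_nonneg _))))
  have st : ∀ x u, u ∈ Icc (0 : ℝ) 1 → StrictMonoOn (fun t => H x t u) univ := fun x u _ =>
    strict_of hτ ((H2 x u).monotoneOn _)
  have up : ∀ x, w x ≤ β x + (s - δ) := cmp hg v w1 (CD.add hβ cd_const) st (fun _ => trivial)
    (fun _ => trivial) (fun x => (w2 x).ge) fun x => by
      rw [hv_shift]
      simp only [hH, add_sub_cancel_left]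
      linarith [bar x, h₁ x, le_abs_self (hv g v β x)]
  have lo : ∀ x, β x + -(s - δ) ≤ w x := cmp hg v (CD.add hβ cd_const) w1 st (fun _ => trivial)
    (fun _ => trivial) (fun x => by
      rw [hv_shift]
      simp only [hH, add_sub_cancel_left, neg_sq, mul_neg]
      linarith [bar x, h₁ x, neg_abs_le (hv g v β x)]) fun x => (w2 x).le
  refine ⟨w, w1, fun x => ?_⟩
  have r2 := sq_le_sq' (a := w x - β x) (b := s - δ) (by linarith [lo x]) (by linarith [up x])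
  refine ⟨r2.trans_lt r1, ?_⟩
  rw [w2 x]
  simp only [hH, hf, κ3 _ r2]

/-- the same on a compact part of any manifold -/
theorem exL (hn : 2 ≤ n) (hg : Met g) (hv' : CC ∞ v) (hR : 0 < R) (hβ : Smooth β)
    (ha : Smooth a) (hA : Smooth A) (a0 : ∀ x, 0 < a x) (A0 : ∀ x, 0 ≤ A x) {K : Set X}
    (hK : IsCompact K) : ∃ w, Smooth w ∧ ∀ x ∈ K, (w x - β x) ^ 2 < R ∧
      hv g v w x = (a x * xf R ((w x - β x) ^ 2) + A x) * (w x - β x) := by
  rcases K.eq_empty_or_nonempty with rfl | hne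
  · exact ⟨fun _ => 0, cd_const, by simp⟩
  obtain ⟨Y, _, _, P, σ, V, k, -, s⟩ := P210L.closeup hg hK isOpen_univ (subset_univ _) hne
  have cv : CC ∞ (pullC P v) := by
    have := P210K.cc_cut (χ := fun _ => (1 : ℝ)) isOpen_univ (fun z _ => s.sm z) cd_const
      (subset_univ _) hv'
    simpa only [one_mul] using this
  obtain ⟨u, u1, u2⟩ := exA hn bg_met cv hR (smooth_comp s.sm hβ) (smooth_comp s.sm ha)
    (smooth_comp s.sm hA) (fun _ => a0 _) fun _ => A0 _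
  obtain ⟨w, s1, s2⟩ := P210L.sec_down s hK k u1
  refine ⟨w, s1, fun z hz => ?_⟩
  have e2 := P210K.hv_eq (s.iso z (k hz)) (fun _ => rfl) s1 (s2 z hz).2 (v := v)
  have e3 := u2 (σ z)
  simp only [e2, s.rt z (k hz)] at e3
  rwa [(s2 z hz).1.self_of_nhds]

theorem ev_alg {γ α x Z R W D σ b q m l e A τ E c : ℝ} (γ0 : 0 < γ) (α0 : 0 < α) (α1 : α ≤ 1)
    (x1 : 1 ≤ x) (hx : (x - 1) * R = Z ^ 2 * x) (R0 : 0 < R) (W1 : 1 ≤ W) (hD : D * W = W ^ 2 - 1)
    (σ0 : 0 ≤ σ) (σD : σ ≤ D) (hb : |b| ≤ c * q) (hE : 36 * |b| ≤ γ * α * R) (hm : m ^ 2 ≤ l)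
    (A0 : 0 ≤ A) (Ab : A * b = 0) (τ0 : 0 < τ) (τ1 : 2 * τ ≤ γ * α)
    (he : e ^ 2 ≤ (τ + A) ^ 3 / 32 * σ)
    (hH : E = (γ * α * x + A) * (D - b) +
      Z * (γ * α * x * (-(1 / 2) * m) + γ * α * (x ^ 2 / R * (2 * Z * (D - b))) + e)) :
    γ * (log W + log α) - (γ * c) ^ 2 ≤
      ((γ * α * x + A) * Z) ^ 2 + 2 * E + (α * q) ^ 2 + 3 / 4 * l := by
  have D0 := σ0.trans σD
  have ga := mul_pos γ0 α0
  have t3 : 2 * (γ * α * b) ≤ (α * q) ^ 2 + (γ * c) ^ 2 := by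
    linarith [sq_nonneg (α * q - γ * c), mul_le_mul_of_nonneg_left ((le_abs_self b).trans hb) ga.le]
  have t4 : log W + log α ≤ α * D := by
    rw [← log_mul (by linarith) α0.ne']
    refine (log_le_sub_one_of_pos (by positivity)).trans (le_of_mul_le_mul_right ?_
      (by linarith : 0 < W))
    rw [mul_assoc α, hD]
    linarith
  have t11 : γ * (log W + log α) ≤ γ * α * D :=
    (mul_le_mul_of_nonneg_left t4 γ0.le).trans_eq (by ring)
  generalize γ * α = G at *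
  obtain ⟨k, hk⟩ : ∃ k, k = G * (Z * x) ^ 2 / R := ⟨_, rfl⟩
  have k0 : 0 ≤ k := hk ▸ by positivity
  have k1 : G * (x - 1) ≤ k := by
    rw [hk, le_div_iff₀ R0, mul_assoc, hx]
    exact mul_le_mul_of_nonneg_left (by linarith [mul_nonneg (sq_nonneg Z) (mul_nonneg
      (sub_nonneg.2 x1) (zero_le_one.trans x1))]) ga.le
  have k2 : 36 * (k * |b|) ≤ (G * x * Z) ^ 2 := by
    have := mul_le_mul_of_nonneg_left hE k0
    have : k * (G * R) = (G * x * Z) ^ 2 := by rw [hk]; field_simp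
    linarith
  have e1 : E = G * (D - b) + (G * (x - 1) + 2 * k) * (D - b) + A * D -
      G * x * Z * m / 2 + Z * e := by
    rw [hH, hk]; linear_combination -Ab
  have p1 : 0 ≤ G * (x - 1) := mul_nonneg ga.le (by linarith)
  have t1 : -(3 * (k * |b|)) ≤ (G * (x - 1) + 2 * k) * (D - b) := by
    linarith [mul_le_mul_of_nonneg_left (show -|b| ≤ D - b by linarith [le_abs_self b])
      (by positivity : 0 ≤ G * (x - 1) + 2 * k), mul_le_mul_of_nonneg_right k1 (abs_nonneg b)]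
  have t2 : G * x * Z * m ≤ (G * x * Z) ^ 2 / 3 + 3 / 4 * l := by
    linarith [sq_nonneg (G * x * Z / 3 * 2 - m)]
  have t5 : -(2 * (Z * e)) ≤ ((τ + A) * Z) ^ 2 + (τ + A) * σ := by
    have p : 0 < τ + A := by linarith
    generalize τ + A = u at *
    refine le_of_mul_le_mul_left ?_ (pow_pos p 2)
    linarith [sq_nonneg (u ^ 2 * Z + e), mul_nonneg (pow_pos p 3).le σ0]
  have t6 : 2 * τ ≤ G * x := τ1.trans (le_mul_of_one_le_right ga.le x1)
  have t7 : (2 * τ * Z) ^ 2 ≤ (G * x * Z) ^ 2 := by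
    rw [mul_pow, mul_pow (G * x)]
    exact mul_le_mul_of_nonneg_right (pow_le_pow_left₀ (by linarith) t6 2) (sq_nonneg _)
  have t8 := mul_le_mul_of_nonneg_right t6 (mul_nonneg A0 (sq_nonneg Z))
  have t9 := mul_le_mul_of_nonneg_left σD (by linarith : 0 ≤ τ + A)
  have t10 := mul_le_mul_of_nonneg_right τ1 D0
  rw [e1]
  linarith [mul_nonneg A0 D0, mul_nonneg τ0.le D0, sq_nonneg (τ * Z),
    mul_nonneg (mul_nonneg τ0.le A0) (sq_nonneg Z)]

theorem xf_dAt (R0 : 0 < R) (dZ : DAt w x) (lt : w x ^ 2 < R) :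
    HasDerivAt (xf R) (xf R (w x ^ 2) ^ 2 / R) (w x ^ 2) ∧ DAt (fun y => xf R (w y ^ 2)) x := by
  have h0 : R - w x ^ 2 ≠ 0 := by linarith
  have dx : HasDerivAt (xf R) (xf R (w x ^ 2) ^ 2 / R) (w x ^ 2) := by
    refine ((((hasDerivAt_id _).const_sub R).inv h0).const_mul R |>.congr_deriv
      ?_).congr_of_eventuallyEq (.of_forall fun t => by simp [xf, div_eq_mul_inv])
    simp only [xf, id]
    field_simp
  exact ⟨dx, DifferentiableAt.comp (g := xf R) (pt x)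
    (by simpa only [loc, symm_pt] using dx.differentiableAt) (dZ.pow 2)⟩

/-- the gain at a point -/
theorem ev_gain (hg : Met g) (hv' : CC ∞ v) {γ q τ c : ℝ} (γ0 : 0 < γ) (hw : Smooth w)
    (hβ : Smooth β) (hμ : Smooth μ) (hA : Smooth A) (μ0 : 0 ≤ μ x) (R0 : 0 < R)
    (lt : (w x - β x) ^ 2 < R) (hb : gn g β x ≤ c * q)
    (hE : 36 * gn g β x ≤ γ * exp (-(1 / 2) * μ x) * R) (A0 : 0 ≤ A x) (Ab : A x * gn g β x = 0)
    (τ0 : 0 < τ) (τ1 : 2 * τ ≤ γ * exp (-(1 / 2) * μ x)) (dA : ip g A A x ≤ (τ + A x) ^ 3 / 32)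
    (e : hv g v w =ᶠ[𝓝 x] fun y =>
      (γ * exp (-(1 / 2) * μ y) * xf R ((w y - β y) ^ 2) + A y) * (w y - β y)) :
    Rv g v x - (exp (-(1 / 2) * μ x) * q) ^ 2 - 3 / 4 * ip g μ μ x - (γ * c) ^ 2 + a2 g w x +
      γ * lw g w x - γ / 2 * μ x ≤ Rv (gb g 1 w) (vg g v w) x := by
  have dZ : DAt (fun y => w y - β y) x := (hw.diff x).sub (hβ.diff x)
  obtain ⟨dx, d2⟩ := xf_dAt R0 dZ lt
  have de : HasDerivAt (fun t => γ * exp (-(1 / 2) * t)) (γ * (exp (-(1 / 2) * μ x) * (-(1 / 2) * 1)))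
      (μ x) := ((hasDerivAt_id _).const_mul _).exp.const_mul γ
  have d1 : DAt (fun y => γ * exp (-(1 / 2) * μ y)) x :=
    Smooth.diff (CD.mul cd_const (CD.exp (CD.mul cd_const hμ))) x
  have b1 := abs_dn_le hg w β x
  have W0 := w_pos hg w x
  have key := ev_alg (Z := w x - β x) (W := ww g 1 w x) (D := dn g w w x) (b := dn g w β x)
    (m := dn g w μ x) (l := ip g μ μ x) (e := dn g w A x) (E := dn g w (hv g v w) x) γ0 (exp_pos _)
    (exp_le_one_iff.2 (by linarith)) (xf_ge (sq_nonneg _) lt) (by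
      rw [xf, div_sub_one (sub_pos.2 lt).ne', sub_sub_cancel]; ring) R0
    (one_le_w hg w x) (by rw [dn, div_mul_cancel₀ _ W0.ne', w_sq hg]; ring) (sg_nonneg hg w x)
    (sg_le_dn hg w x) (b1.trans hb) (by linarith) ((dn_sq hg w μ x).trans
      (mul_le_of_le_one_right (hg.ip_nonneg μ x) (sg_le hg w x))) A0
    ((mul_eq_zero.1 Ab).elim (fun k => by rw [k, zero_mul]) fun k => by
      rw [abs_nonpos_iff.1 (b1.trans_eq k), mul_zero]) τ0 τ1
    ((dn_sq hg w A x).trans (mul_le_mul_of_nonneg_right dA (sg_nonneg hg w x))) (by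
      rw [dn_congr .rfl e, dn_mul ((d1.mul d2).add (hA.diff x)) dZ, dn_add (d1.mul d2) (hA.diff x),
        dn_mul d1 d2, dn_comp de (hμ.diff x), dn_comp (v := fun y => (w y - β y) ^ 2) dx (dZ.pow 2),
        dn_pow2 dZ, dn_sub (hw.diff x) (hβ.diff x)]
      ring)
  rw [gid hg hv' hw, e.self_of_nhds, lw]
  rw [log_exp] at key
  linarith [(met_g hg hw).ip_nonneg (lw g w) x]

end Vale.Agent.P223U
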