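import Vale.Agent.P223U.Def
import Vale.Agent.P210U.Jw

/-!
# P223U: the potential; from the neck to the new map (helper22)
-/

open Filter Topology Set MeasureTheory Real
open scoped ContDiff
open Vale.Agent.P366M Vale.Agent.P366M.An Vale.Agent.P210G Vale.Agent.P210U
open Vale.Agent.P366H (sm_st)
open Vale.Agent.P210E (K4)
open Vale.Agent.P223Y (Jd)
open Fin (last)

noncomputable section

namespace Vale.Agent.P223U

theorem Ph_nn (s T y : ℝ) : 0 ≤ Ph s T y := le_max_right _ _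

theorem cont_Ph (s T : ℝ) : Continuous (Ph s T) := by unfold Ph; fun_prop

theorem Ph_anti {s : ℝ} (s0 : 0 ≤ s) (T : ℝ) : Antitone (Ph s T) := fun _ _ h =>
  max_le_max_right _ (sub_le_sub_right (exp_le_exp.2 (by nlinarith)) _)

theorem Ph_link {s T t y : ℝ} (s0 : 0 < s) (h : -1 - log (exp t + exp (-s * (T + 1))) / s ≤ y) :
    Ph s T y ≤ exp s * exp t := by
  refine max_le ?_ (by positivity)
  have h1 := mul_le_mul_of_nonneg_left h s0.le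
  rw [mul_sub, mul_div_cancel₀ _ s0.ne'] at h1
  have h2 : exp (-s * y) ≤ exp (s + log (exp t + exp (-s * (T + 1)))) := exp_le_exp.2 (by linarith)
  rw [exp_add, exp_log (by positivity), mul_add, ← exp_add s (-s * _),
    show s + -s * (T + 1) = -s * T by ring] at h2
  linarith

theorem Ms_nn {n : ℕ} {M : Type} [Mf0 n M] {s T A : ℝ} {g : Fld n M} {S l p : M → ℝ} {K : Set M}
    (h : ∀ x, 0 < p x) : 0 ≤ Ms s T A g S l p K :=
  integral_nonneg fun x => mul_nonneg (Ph_nn _ _ _) (pow_pos (h x) _).le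

theorem avoid_alg {k : ℕ} {y b : Fin k → ℝ} {a μ σ : ℝ} (h : 7 / 16 < ∑ j, y j ^ 2 + a ^ 2)
    (ha : |a| ≤ 1 / 4) (hb : ∑ j, b j ^ 2 ≤ 1 / 256) : 1 / 64 ≤ ∑ j, (y j - b j) ^ 2 ∧
    (1 ≤ μ → σ ∈ Icc (0 : ℝ) 1 → 1 / 128 < ∑ j, ((1 - σ) * (μ * (y j - b j)) + σ * y j) ^ 2) := by
  have h1 : ∑ j, y j ^ 2 ≤ 2 * ∑ j, (y j - b j) ^ 2 + 2 * ∑ j, b j ^ 2 := by
    rw [Finset.mul_sum, Finset.mul_sum, ← Finset.sum_add_distrib]
    exact Finset.sum_le_sum fun j _ => by nlinarith [sq_nonneg (y j - 2 * b j)]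
  have h2 := sq_le_sq' (abs_le.1 ha).1 (abs_le.1 ha).2
  refine ⟨by linarith, fun m1 hσ => ?_⟩
  have h3 : ∑ j, (y j - b j) ^ 2 ≤ 2 * ∑ j, ((1 - σ) * (μ * (y j - b j)) + σ * y j) ^ 2 +
      2 * ∑ j, b j ^ 2 := by
    rw [Finset.mul_sum, Finset.mul_sum, ← Finset.sum_add_distrib]
    refine Finset.sum_le_sum fun j _ => ?_
    have n1 : 1 ≤ (1 - σ) * μ + σ := by nlinarith [hσ.1, hσ.2]
    have n2 : (y j - b j) ^ 2 ≤ (((1 - σ) * μ + σ) * (y j - b j)) ^ 2 := by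
      rw [mul_pow]; exact le_mul_of_one_le_left (sq_nonneg _) (one_le_pow₀ n1)
    have n3 : (σ * b j) ^ 2 ≤ b j ^ 2 := by
      rw [mul_pow]; exact mul_le_of_le_one_left (sq_nonneg _) (pow_le_one₀ hσ.1 hσ.2)
    nlinarith [sq_nonneg (((1 - σ) * μ + σ) * (y j - b j) + 2 * (σ * b j))]
  linarith

variable {k : ℕ} {X : Type} [Mf0 (k + 1) X] {g : Fld (k + 1) X} {G : Fin (k + 1) → X → ℝ}
  {E : Fin k → X → ℝ} {O K₀ : Set X} {l f h B : X → ℝ} {u : ℕ → X → ℝ} {c e : ℕ → ℝ}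
  {C κ Λ r a : ℝ} {ψ θ : ℝ → ℝ} {b₀ : Fin k → ℝ}

theorem ev_slab {I : Type} {𝒰 : Ultrafilter I} {u : I → X → ℝ} {c e : I → ℝ}
    (F : P210L.Vf 𝒰 g f h u c e O K₀ Λ) (S : ℝ) {P : X → Prop}
    (H : ∀ x ∈ La 𝒰 u, ∀ᶠ y in 𝓝 x, P y) : ∀ᶠ i in (𝒰 : Filter I), ∀ x, |u i x| ≤ S → P x :=
  ev_neck F fun x hx => nk_of_nhds (H x hx)

/-- the weight on the upper cap -/
def zt (ψ : ℝ → ℝ) (G : Fin (k + 1) → X → ℝ) (E : Fin k → X → ℝ) (x : X) : ℝ :=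
  smoothTransition (8 * G (last k) x - 1) * ∏ j, ψ (E j x)

theorem cont_zt (hψ : Bmp r ψ) (sG : ∀ j, Smooth (G j)) (sE : ∀ j, Smooth (E j)) :
    Continuous (zt ψ G E) :=
  (sm_st.continuous.comp ((continuous_const.mul (sG _).cont).sub continuous_const)).mul
    (continuous_finsetProd _ fun j _ => hψ.cont.comp (sE j).cont)

omit [Mf0 (k + 1) X] in
theorem zt_nn (hψ : Bmp r ψ) (x : X) : 0 ≤ zt ψ G E x :=
  mul_nonneg (smoothTransition.nonneg _) (Finset.prod_nonneg fun _ _ => hψ.nn _)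

theorem zt_off (hψ : Bmp r ψ) (hr : k * r ^ 2 ≤ 1 / 128) (sE : ∀ j, Smooth (E j)) {x : X}
    (q : 1 ≤ nsq E x) : x ∉ tsupport (zt ψ G E) :=
  notMem_tsupport_iff_eventuallyEq.2 (((sm_nsq sE).cont.continuousAt.eventually
    (lt_mem_nhds (show 1 / 2 < nsq E x by linarith))).mono fun y p => mul_eq_zero_of_right _
      (by_contra fun q => by linarith [hψ.sum_le q, show 1 / 2 < ∑ j, E j y ^ 2 from p]))

theorem fin_of (hψ : Bmp r ψ) (hr : (k + 1) * r ^ 2 ≤ 1 / 128) (hg : Met g) (R : Rad O G)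
    (N : Nk g l G O f C κ h u c e K₀ Λ B) (hb : ∑ j, b₀ j ^ 2 ≤ 1 / 256) (sE : ∀ j, Smooth (E j))
    (par : ∀ x ∈ La (hyperfilter ℕ) u, |G (last k) x| ≤ 1 / 4 →
      ∃ μ ≥ (1 : ℝ), ∀ j, E j x = μ * (G j.castSucc x - b₀ j)) (cθ : Continuous θ)
    (θ0 : ∀ t, 0 ≤ θ t) (hD : ∀ u : X → ℝ, Smooth u →
      (∀ x, |u x| ≤ 2 → |G (last k) x| ≤ 1 / 4 → ∀ σ ∈ Icc (0 : ℝ) 1,
        1 / 128 < ∑ j, ((1 - σ) * E j x + σ * G j.castSucc x) ^ 2) →
      ∃ G' : Fin (k + 1) → X → ℝ, (∀ j, Smooth (G' j)) ∧ (∀ x, 2 ≤ u x → ∀ j, G' j x = G j x) ∧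
        ∀ x, u x ≤ 2 → (∏ j, ψ (G' j x)) ≠ 0 → |u x| ≤ 1 ∧ 1 / 4 ≤ G (last k) x ∧
          (∏ j, ψ (G' j x)) * |Jd g G' x| =
            (∏ j, ψ (E j x)) * θ (u x) * |Jd g (Fin.snoc (α := fun _ => X → ℝ) E u) x|)
    (H : ∀ᶠ i in (hyperfilter ℕ : Filter ℕ), ∫ x in K₀, zt ψ G E x * θ (u i x) *
      |Jd g (Fin.snoc (α := fun _ => X → ℝ) E (u i)) x| ∂vol g ≤ a) :
    ∃ G' : Fin (k + 1) → X → ℝ, (∀ i, Smooth (G' i)) ∧
      (∀ x, x ∉ O ∨ 1 ≤ nsq G x → ∀ i, G' i x = G i x) ∧ Cst g ψ G' (K4 G O) ≤ a := by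
  have F := N.vf
  have := hg.locFin
  have av := ev_slab F 2 (P := fun x => |G (last k) x| ≤ 1 / 4 → ∀ σ ∈ Icc (0 : ℝ) 1,
      1 / 128 < ∑ j, ((1 - σ) * E j x + σ * G j.castSucc x) ^ 2) fun x hx => by
    by_cases q : |G (last k) x| ≤ 1 / 4
    · obtain ⟨μ, m1, e⟩ := par x hx q
      have cE := fun j => (sE j).cont
      have cG := fun j => (R.sm j).cont
      refine ((isCompact_Icc (a := (0 : ℝ)) (b := 1)).eventually_forall_of_forall_eventually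
        (P := fun y σ => 1 / 128 < ∑ j, ((1 - σ) * E j y + σ * G j.castSucc y) ^ 2) fun σ hσ =>
          (Continuous.continuousAt (by fun_prop)).eventually (lt_mem_nhds ?_)).mono fun _ p _ => p
      simp only [e]
      exact (avoid_alg ((F.sub (F.la_sub hx)).2.1.trans_eq (Fin.sum_univ_castSucc _)) q hb).2 m1 hσ
    · exact ((R.sm _).cont.abs.continuousAt.eventually (lt_mem_nhds (not_le.1 q))).mono
        fun y p w => absurd w (not_le.2 p)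
  obtain ⟨i, ⟨⟨⟨a1, a2⟩, a3⟩, a4⟩, a5⟩ :=
    ((((H.and av).and (N.out 2)).and (N.inn 2)).and (F.cf 1)).exists
  obtain ⟨G', s1, s2, s3⟩ := hD (u i) (F.smu i) a2
  have s4 : ∀ x ∈ O, (∏ j, ψ (G' j x)) ≠ 0 → u i x ≤ 2 := fun x hx q => not_lt.1 fun w => by
    simp only [s2 x w.le] at q
    have := hψ.sum_le q
    push_cast at this
    linarith [a4 x hx (show ∑ j, G j x ^ 2 ≤ _ by linarith)]
  have sub : K₀ ⊆ K4 G O := fun x hx => ⟨(F.sub hx).1, by linarith [(F.sub hx).2.2]⟩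
  refine ⟨G', s1, fun x q => s2 x (a3 x (q.imp_right fun q => by linarith)).le, le_trans ?_ a1⟩
  refine (setIntegral_eq_of_subset_of_forall_sdiff_eq_zero R.cpt.measurableSet sub fun x hx =>
    mul_eq_zero_of_left (by_contra fun q => hx.2 (a5 x (s3 x (s4 x hx.1.1 q) q).1)) _).trans_le ?_
  refine setIntegral_mono_on (((continuous_finsetProd _ fun j _ => hψ.cont.comp (s1 j).cont).mul
    (P223D.cont_abs_Jd hg s1)).continuousOn.integrableOn_compact F.cpt) ((((cont_zt hψ R.sm sE).mul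
      (cθ.comp (F.smu i).cont)).mul (P223D.cont_abs_Jd hg fun j => Fin.lastCases
        (by simpa using F.smu i) (fun j => by simpa using sE j) j)).continuousOn.integrableOn_compact
        F.cpt) F.cpt.measurableSet fun x hx => ?_
  by_cases q : (∏ j, ψ (G' j x)) = 0
  · rw [q, zero_mul]
    exact mul_nonneg (mul_nonneg (zt_nn hψ x) (θ0 _)) (abs_nonneg _)
  · obtain ⟨-, b2, b3⟩ := s3 x (s4 x (sub hx).1 q) q
    rw [b3, zt, smoothTransition.one_of_one_le (by linarith), one_mul]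

end Vale.Agent.P223U
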