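import Vale.Agent.P223U.Fin
import Vale.Agent.P210U.Neck
import Vale.Agent.P210N.Zst
import Vale.Agent.P210L.Za
import Vale.Agent.P210T.Gp
import Vale.Agent.P366D.Base

/-!
# P223U: the induction step of `CUBE` (helper22)
-/

open Filter Topology Set MeasureTheory Real
open scoped ContDiff
open Vale.Agent.P366M Vale.Agent.P366M.Gr Vale.Agent.P366M.Y.C Vale.Agent.P366M.An
open Vale.Agent.P366D (Rf Mc Sub pull smooth_comp Null)
open Vale.Agent.P210G Vale.Agent.P210U Vale.Agent.P210H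
open Vale.Agent.P210E (K4)
open Vale.Agent.P223Y (Jd)
open Fin (last)

noncomputable section

namespace Vale.Agent.P223U

section

variable {k : ℕ} {X : Type} [Mf0 (k + 2) X] {g : Fld (k + 2) X} {v : Fin (k + 2) → X → ℝ}
  {l p f h B : X → ℝ} {G : Fin (k + 2) → X → ℝ} {O K₀ : Set X} {A s T δ C κ Λ : ℝ} {u : ℕ → X → ℝ}
  {c e : ℕ → ℝ}

theorem Cd.sd (D : Cd g v l p G O A) (a : ℝ) : Smooth fun x => a / l x ^ 2 :=
  CD.div cd_const (CD.pow D.ok.sml 2) fun x => (pow_pos (D.ok.l0 x) 2).ne'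

theorem Cd.sq (D : Cd g v l p G O A) : Smooth fun x => -((k + 1 : ℕ) * log (p x)) :=
  CD.neg (CD.mul cd_const (CD.log D.smp fun x => (D.p0 x).ne'))

theorem Cd.eq (D : Cd g v l p G O A) (x : X) : exp ((k + 1 : ℕ) * log (p x)) = p x ^ (k + 1) := by
  rw [exp_nat_mul, exp_log (D.p0 x)]

/-- the linked weight -/
theorem Cd.rel (D : Cd g v l p G O A) (hR : RL) (hA : 4 ≤ A) (s0 : 0 < s) (T : ℝ) (δ0 : 0 < δ) :
    ∃ f, Smooth f ∧ (∀ x ∈ {x ∈ O | 7 / 16 ≤ nsq G x ∧ nsq G x ≤ 11 / 16}, A / 2 / l x ^ 2 -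
      log (exp (f x + -((k + 1 : ℕ) * log (p x))) + exp (-s * T)) / s ≤ Rf g f x) ∧
      ∫ x in {x ∈ O | 7 / 16 ≤ nsq G x ∧ nsq G x ≤ 11 / 16},
        p x * (1 + s * (A / 4 / l x ^ 2)) * exp (f x) ∂vol g ≤
        2 * Ms s (T + 2 / s) A g (Rv g v) l p (K4 G O) + δ := by
  have R : Rad O G := ⟨D.smG, D.opn, D.cpt⟩
  have hg := D.ok.met
  have l0 := D.ok.l0
  obtain ⟨f, sf, f1, f2⟩ := hR _ X g (Rv g v) (fun x => Rv g v x - A / l x ^ 2)
    (fun x => A / 2 / l x ^ 2) _ p (fun x => s * (A / 4 / l x ^ 2)) _ (K4 G O) s T δ (by omega) hg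
    (sm_Rv hg D.ok.cc).cont ((sm_Rv hg D.ok.cc).cont.sub (D.sd A).cont) (D.sd _) D.sq D.smp
    (continuous_const.mul (D.sd _).cont) D.p0 (fun x => by positivity)
    (R.ann (7 / 16) (b := 11 / 16) (by norm_num)) D.cpt
    (fun x q => mem_interior.2 ⟨_, fun y (w : y ∈ {x ∈ O | nsq G x < 4}) =>
      ⟨w.1, w.2.le⟩, R.opn_in 4, q.1, by linarith [q.2.2]⟩)
    (by simpa using (spec_of_Rv (θ := 0) (O := interior (K4 G O)) (P := Rv g v) hg D.ok.cc
      (sm_Rv hg D.ok.cc).cont (by norm_num) fun x _ => by simp)) s0 δ0 fun x q => by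
      have h1 : gn g p x / p x ≤ 1 / l x := by
        rw [div_le_div_iff₀ (D.p0 x) (l0 x)]; linarith [(D.bd x q).2.1]
      have h2 := pow_le_pow_left₀ (div_nonneg (gn_nonneg _ _ _) (D.p0 x).le) h1 2
      have h3 : (1 / l x) ^ 2 ≤ A / 4 / l x ^ 2 := by
        rw [div_pow]; exact div_le_div_of_nonneg_right (by linarith) (sq_nonneg _)
      rw [mul_div_cancel_left₀ _ s0.ne']
      have : A / l x ^ 2 = 4 * (A / 4 / l x ^ 2) := by ring
      have : A / 2 / l x ^ 2 = 2 * (A / 4 / l x ^ 2) := by ring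
      linarith
  refine ⟨f, sf, f1, f2.trans_eq (congrArg (2 * · + δ) ?_)⟩
  exact integral_congr_ae (.of_forall fun x => by simp only [neg_neg, D.eq]; ring)

/-- the bound for the area -/
theorem Cd.area (D : Cd g v l p G O A) (N : Nk g l G O f C κ h u c e K₀ Λ B) (A0 : 0 ≤ A)
    (s0 : 0 < s) (c2 : 0 ≤ C) (hκ : ∀ x ∈ K4 G O, κ ≤ p x) :
    ∫ x in K₀, exp (f x) * (gn g B x + κ) ∂vol g ≤ (C * (k + 2) * (1 + 4 / s) + 1) *
      ∫ x in {x ∈ O | 7 / 16 ≤ nsq G x ∧ nsq G x ≤ 11 / 16},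
        p x * (1 + s * (A / 4 / l x ^ 2)) * exp (f x) ∂vol g := by
  have R : Rad O G := ⟨D.smG, D.opn, D.cpt⟩
  have F := N.vf
  have hg := F.met
  have := hg.locFin
  have cf := F.smf.cont.rexp
  have k4 : ∀ x ∈ K₀, x ∈ K4 G O := fun x q => ⟨(F.sub q).1, by linarith [(F.sub q).2.2]⟩
  have b0 : ∀ x, 0 ≤ s * (A / 4 / l x ^ 2) := fun x => by positivity
  have cb : Continuous fun x => p x * (1 + s * (A / 4 / l x ^ 2)) * exp (f x) :=
    (D.smp.cont.mul (continuous_const.add (continuous_const.mul (D.sd _).cont))).mul cf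
  refine le_trans ?_ (mul_le_mul_of_nonneg_left (setIntegral_mono_set
    (cb.continuousOn.integrableOn_compact (R.ann _ (by norm_num))) (.of_forall fun x => mul_nonneg
      (mul_nonneg (D.p0 x).le (by linarith [b0 x])) (exp_pos _).le) (LE.le.eventuallyLE
        fun x (q : x ∈ K₀) => ⟨(F.sub q).1, (F.sub q).2.1.le, (F.sub q).2.2.le⟩)) (by positivity))
  rw [← integral_const_mul]
  refine setIntegral_mono_on ((cf.mul ((hg.cont_gn N.smB.one).add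
    continuous_const)).continuousOn.integrableOn_compact F.cpt)
    ((continuous_const.mul cb).continuousOn.integrableOn_compact F.cpt) F.cpt.measurableSet
    fun x q => ?_
  have t1 : ∑ i, gn g (G i) x ≤ (k + 2) * (p x * (1 + A / l x ^ 2)) := by
    simpa using Finset.sum_le_card_nsmul Finset.univ _ _ fun i _ => ((D.bd x (k4 x q)).2.2 i).2
  have t2 : 1 + A / l x ^ 2 ≤ (1 + 4 / s) * (1 + s * (A / 4 / l x ^ 2)) := by
    have : 4 / s * (s * (A / 4 / l x ^ 2)) = A / l x ^ 2 := by field_simp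
    have : 0 < 4 / s := by positivity
    nlinarith [b0 x]
  have t3 := (N.gB x q).trans (mul_le_mul_of_nonneg_left (t1.trans (mul_le_mul_of_nonneg_left
    (mul_le_mul_of_nonneg_left t2 (D.p0 x).le) (by positivity))) c2)
  have t4 := (hκ x (k4 x q)).trans
    (le_mul_of_one_le_right (D.p0 x).le (by linarith [b0 x] : 1 ≤ 1 + s * (A / 4 / l x ^ 2)))
  nlinarith [exp_pos (f x)]

/-- the potential on the hypersurface -/
def Pz (k : ℕ) (s T A C κ : ℝ) (l p f : X → ℝ) (x : X) : ℝ := A / 2 / l x ^ 2 -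
  log (exp (f x + -((k + 1 : ℕ) * log (p x))) + exp (-s * (T + 1))) / s + (-C / l x ^ 2 - κ)

theorem Cd.sP (D : Cd g v l p G O A) (sf : Smooth f) : Smooth (Pz k s T A C κ l p f) :=
  CD.add (CD.sub (D.sd _) (CD.div_const (CD.log (CD.add (CD.exp (CD.add sf D.sq)) cd_const)
    fun x => by positivity) s)) (CD.sub (D.sd _) cd_const)

/-- the mass on the hypersurface -/
theorem Cd.mass (D : Cd g v l p G O A) (sf : Smooth f) (s0 : 0 < s) (hA : 4 * C ≤ A) (hκ : κ ≤ 1 / 2)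
    {Z : Type} [Mf0 (k + 1) Z] {γ : Fld (k + 1) Z} (hγ : Met γ) {ι : Z → X} (ci : Continuous ι)
    {N : Set Z} (cN : IsCompact N) : Ms s T (A / 4) γ (fun z => Pz k s T A C κ l p f (ι z) - 1 / 2)
      (fun z => l (ι z)) (fun z => 4 * p (ι z)) N ≤
      exp s * 4 ^ (k + 1) * ∫ z in N, exp (f (ι z)) ∂vol γ := by
  have := hγ.locFin
  rw [← integral_const_mul]
  refine setIntegral_mono_on ((((cont_Ph _ _).comp ((((D.sP sf).cont.sub continuous_const).sub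
    (D.sd _).cont).comp ci)).mul (((continuous_const.mul D.smp.cont).pow _).comp
      ci)).continuousOn.integrableOn_compact cN) ((continuous_const.mul
        (sf.cont.rexp.comp ci)).continuousOn.integrableOn_compact cN) cN.measurableSet fun z _ => ?_
  have pz := D.p0 (ι z)
  refine (mul_le_mul_of_nonneg_right (Ph_link (t := f (ι z) + -((k + 1 : ℕ) * log (p (ι z)))) s0
    ?_) (by positivity)).trans_eq ?_
  · have t1 : C / l (ι z) ^ 2 ≤ A / 4 / l (ι z) ^ 2 :=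
      div_le_div_of_nonneg_right (by linarith) (sq_nonneg _)
    have t2 : A / 2 / l (ι z) ^ 2 = 2 * (A / 4 / l (ι z) ^ 2) := by ring
    simp only [Pz, neg_div]
    linarith
  · rw [exp_add, exp_neg, D.eq, mul_pow]
    field_simp

variable {S : Set X} {Z : Type} [Mf0 (k + 1) Z] {ι : Z → X} {Λ' m r : ℝ} {b₀ : Fin (k + 1) → ℝ}
  {Dd : Fin (k + 1) → X → ℝ} {ψ θ : ℝ → ℝ} {w : X → ℝ}

/-- the data on the regular part of the hypersurface -/
theorem Cd.zc (D : Cd g v l p G O A) (N : Nk g l G O f C κ h u c e K₀ Λ B)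
    (f1 : ∀ x ∈ {x ∈ O | 7 / 16 ≤ nsq G x ∧ nsq G x ≤ 11 / 16}, A / 2 / l x ^ 2 -
      log (exp (f x + -((k + 1 : ℕ) * log (p x))) + exp (-s * (T + 1))) / s ≤ Rf g f x)
    (kS : IsCompact S) (nul : ∀ e ∈ At X, Null (((k + 1 : ℕ) : ℝ) - 15 / 4) (e.symm ⁻¹' S))
    (hι : Sub ι (La (hyperfilter ℕ) u \ S)) (mc : Mc g ι Λ')
    (rg : ∀ S > (0 : ℝ), ∀ z, Rg (hyperfilter ℕ : Filter ℕ) u S ι z)
    (g1 : ∑ j, b₀ j ^ 2 ≤ 1 / 256) (hDd : Dd = fun j x => G j.castSucc x - b₀ j)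
    (g3 : ∀ x ∈ S, 1 < m ^ 2 * nsq Dd x) : ∃ L > (0 : ℝ), ∀ Γ, ∃ β W w q t, Smooth w ∧
      (∀ x ∈ S, 2 ≤ w x) ∧ Zc (pull ι g) β (fun z => l (ι z)) (fun z => 4 * p (ι z))
        (fun z => G (last _) (ι z)) (fun j z => Dd j (ι z)) W (fun z => w (ι z)) q
        (fun z => Pz k s T A C κ l p f (ι z) - 1 / 2) (A / 4) m L Γ t := by
  have F := N.vf
  have hg := F.met
  have sf := F.smf
  have sl := D.ok.sml
  have l0 := D.ok.l0
  have k4 : ∀ x ∈ K₀, x ∈ K4 G O := fun x q => ⟨(F.sub q).1, by linarith [(F.sub q).2.2]⟩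
  have sD : ∀ j, Smooth (Dd j) := fun j => hDd ▸ CD.sub (D.smG _) cd_const
  have hγ := hι.met hg
  have ci := hι.emb.continuous
  have mA : ∀ z, ι z ∈ La (hyperfilter ℕ) u \ S := fun z => hι.rng ▸ mem_range_self z
  have mK : ∀ z, ι z ∈ K₀ := fun z => F.la_sub (mA z).1
  obtain ⟨P, hP⟩ : ∃ P : X → ℝ, P = Pz k s T A C κ l p f := ⟨_, rfl⟩
  have sP : Smooth P := hP ▸ D.sP sf
  rw [← hP]
  obtain ⟨L, hL⟩ := D.cpt.bddAbove_image (f := fun x => |P x| + 1 + l x + (l x)⁻¹)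
    (((sP.cont.abs.add continuous_const).add sl.cont).add
      (sl.cont.inv₀ fun x => (l0 x).ne')).continuousOn
  replace hL : ∀ z, |P (ι z)| + 1 + l (ι z) + (l (ι z))⁻¹ ≤ L := fun z => hL ⟨_, k4 _ (mK z), rfl⟩
  have li : ∀ x, 0 < (l x)⁻¹ := fun x => inv_pos.2 (l0 x)
  refine ⟨L, by
    obtain ⟨z⟩ : Nonempty Z := inferInstance
    linarith [hL z, abs_nonneg (P (ι z)), l0 (ι z), li (ι z)], fun Γ => ?_⟩
  obtain ⟨B₁, hB₁⟩ := F.cpt.bddAbove_image (hg.cont_gn sf.one).continuousOn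
  have mB : Mc g ι (max (max 0 Λ') B₁) := fun Q hQ z => (mc Q hQ z).trans
    (mul_le_mul_of_nonneg_right ((le_max_right _ _).trans (le_max_left _ _)) (gn_nonneg _ _ _))
  obtain ⟨C', s₁, t₁, W, w, q₁, H⟩ := hardy (Nat.le_add_left 1 k) hg kS nul
    (U := {x | k ≠ 0 ∧ 1 < m ^ 2 * nsq Dd x}) (isOpen_const.and (isOpen_lt continuous_const
      (continuous_const.mul (sm_nsq sD).cont))) (fun x hx => ⟨fun k0 => by
        have := (nul _ (ch_mem x)).eq_empty (by subst k0; norm_num)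
        exact this.subset (show pt x ∈ _ by simpa only [mem_preimage, symm_pt] using hx), g3 x hx⟩)
    ((le_max_left 0 Λ').trans (le_max_left _ B₁)) Γ 4 (ε := 1 / 4) (by norm_num) (θ := 1 / 64)
    (by norm_num)
  have cw : IsCompact {z | w (ι z) ≤ 11 / 8} := by
    have := hι.emb.isInducing.isCompact_preimage' (F.cpt_la.inter_right
      (isClosed_le H.smw.cont (continuous_const (y := (11 / 8 : ℝ)))))
      (hι.rng ▸ fun x hx => ⟨hx.1, fun q => by linarith [H.inn x q, show w x ≤ _ from hx.2]⟩)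
    rwa [preimage_inter, eq_univ_of_forall (s := ι ⁻¹' La _ u) fun z => (mA z).1,
      univ_inter] at this
  obtain ⟨l', sl', hl'⟩ := F.state k.succ_pos hι rg sP isOpen_univ
    (fun z _ => Eventually.mono (F.opn.mem_nhds (F.sub (mK z))) fun x q => by
      rw [hP, Pz]; linarith [f1 x ⟨q.1, q.2.1.le, q.2.2.le⟩, N.pos x q.1 q.2.1 q.2.2])
    cw (subset_univ _) (η := 1 / 4) (by norm_num)
  have res : ∀ {a : X → ℝ} z, Smooth a → gn (pull ι g) (fun z => a (ι z)) z ≤ gn g a (ι z) :=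
    fun z ha => P366H.gn_res hg hγ (hι.sm z) (ha.diff _)
  have sW := smooth_comp hι.sm H.smW
  have sF : Smooth fun z => f (ι z) + l' z + (1 / 2 * log (W (ι z)) + 0 * log 1) :=
    CD.add (CD.add (smooth_comp hι.sm sf) sl') (CD.add (CD.mul cd_const
      (CD.log sW fun y => by linarith [H.W1 (ι y)])) cd_const)
  refine ⟨fun i y => -pd i (fun z => f (ι z) + l' z + (1 / 2 * log (W (ι z)) + 0 * log 1)) y,
    fun z => W (ι z), w, fun z => q₁ (ι z), t₁, H.smw, H.inn,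
    ⟨hγ, (cc_df sF).neg, smooth_comp hι.sm sl, fun z => l0 _⟩,
    CD.mul cd_const (smooth_comp hι.sm D.smp), fun z => mul_pos four_pos (D.p0 _),
    smooth_comp hι.sm (D.smG _), fun j => smooth_comp hι.sm (sD j), sW, smooth_comp hι.sm H.smw,
    (sP.cont.comp ci).sub continuous_const, cw, fun z => H.W1 _, fun z => H.lrg _,
    fun z hz => (hι.sm z).cAt le_rfl (H.smh _ hz), fun z => H.h0 _, fun z => H.low _,
    fun c => (H.cls c).imp fun b hb => ⟨hb.1, fun z => hb.2 _⟩,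
    fun z hz => le_trans (by norm_num) ((H.sub Z ι hγ mB z (hι.sm z)).pos hz),
    fun z => (H.sub Z ι hγ mB z (hι.sm z)).big,
    fun z hz => (s₁ (by_contra fun q => by linarith [(H.out _ q).2.1])).2.le,
    fun z _ h0 h1 => P210L.sep_alg (b := fun j => G j.castSucc (ι z))
      ((F.sub (mK z)).2.1.trans_eq (Fin.sum_univ_castSucc _)) g1
        (by simpa only [nsq, hDd] using h1) h0,
    fun k0 z => ((H.out _ fun q => (s₁ q).1 k0).2.1.trans_le zero_le_one), fun z hz => ?_⟩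
  obtain ⟨d1, d2, d3⟩ := D.bd _ (k4 _ (mK z))
  have k1 := P210N.zst_pt (c := 0) (W₂ := fun _ => 1) (e₂ := 0) hγ (smooth_comp hι.sm sf) sl'
    sW cd_const (fun y => H.W1 _) (fun _ => le_rfl) le_rfl ((res z sf).trans
      ((hB₁ ⟨_, mK z, rfl⟩).trans (le_max_right _ _))) (H.sub Z ι hγ mB z (hι.sm z)).sup
    (by rw [lap_const, gn_zero fun i => pd_const _ i z]; simp) (fun _ _ => rfl) .rfl
  rw [sub_div, mul_div_assoc] at k1
  have lz := l0 (ι z)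
  have gD : ∀ j, gn (pull ι g) (fun z => Dd j (ι z)) z ≤ gn g (G j.castSucc) (ι z) :=
    fun j => (res z (sD j)).trans_eq (by
      rw [gn_of_pd (u := Dd j) (s := 1) (u' := G j.castSucc) fun i => by
        rw [hDd, one_mul]; exact pd_sub_const _ i, abs_one, one_mul])
  refine ⟨by linarith [hl' z hz, div_le_self (by norm_num : (0 : ℝ) ≤ 1 / 4) (H.W1 (ι z))],
    by linarith [hL z, neg_abs_le (P (ι z)), li (ι z)], inv_le_of_inv_le₀ lz (by
      linarith [hL z, abs_nonneg (P (ι z))]), by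
      linarith [hL z, abs_nonneg (P (ι z)), li (ι z)], (res z sl).trans d1, ?_, fun j =>
    ⟨(mul_le_mul_of_nonneg_left (gD j) lz.le).trans (d3 _).1, (gD j).trans
      ((d3 _).2.trans ?_)⟩⟩
  · rw [gn_of_pd (pd_const_mul _), abs_of_pos four_pos]
    linarith [mul_le_mul_of_nonneg_left (res z D.smp) lz.le]
  · have : A / l (ι z) ^ 2 = 4 * (A / 4 / l (ι z) ^ 2) := by ring
    rw [this]
    linarith [D.p0 (ι z)]

omit [Mf0 (k + 2) X] in
theorem nsq_mul {n : ℕ} {E D : Fin n → X → ℝ} {x : X} (μ : ℝ) (q : ∀ j, E j x = μ * D j x) :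
    nsq E x = μ ^ 2 * nsq D x := by simp only [nsq, q, mul_pow, Finset.mul_sum]

/-- the extension of the map on the hypersurface -/
theorem Cd.ext (D : Cd g v l p G O A) (N : Nk g l G O f C κ h u c e K₀ Λ B) (hJ : NIJ)
    (hψ : Bmp r ψ) (hr : ((k + 1 : ℕ) : ℝ) * r ^ 2 ≤ 1 / 128) (θc : Continuous θ)
    (θs : HasCompactSupport θ) (θ0 : ∀ t, 0 ≤ θ t) (θ1 : ∫ t, θ t = 1) (cS : IsClosed S)
    (hι : Sub ι (La (hyperfilter ℕ) u \ S))
    (rg : ∀ S > (0 : ℝ), ∀ z, Rg (hyperfilter ℕ : Filter ℕ) u S ι z)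
    (g1 : ∑ j, b₀ j ^ 2 ≤ 1 / 256) (hDd : Dd = fun j x => G j.castSucc x - b₀ j) (m1 : 1 ≤ m)
    (g3 : ∀ x ∈ S, 1 < m ^ 2 * nsq Dd x) (sw : Smooth w) (inn : ∀ x ∈ S, 2 ≤ w x)
    (cw : IsCompact {z | w (ι z) ≤ 11 / 8}) (far : ∀ z, 1 ≤ w (ι z) → 1 ≤ m ^ 2 * nsq Dd (ι z))
    (sep : ∀ z, w (ι z) ≤ 11 / 8 → 0 < G (last _) (ι z) → nsq Dd (ι z) ≤ 1 / 16 →
      1 / 2 ≤ G (last _) (ι z)) {E : Fin (k + 1) → Z → ℝ} (sE : ∀ j, Smooth (E j))
    (e1 : ∀ z, 5 / 4 < w (ι z) → ∀ j, E j z = 8 * m * Dd j (ι z))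
    (e2 : ∀ z, G (last _) (ι z) ≤ 0 ∨ 1 / 64 ≤ nsq Dd (ι z) →
      ∃ μ ≥ (1 : ℝ), ∀ j, E j z = μ * Dd j (ι z)) (δ0 : 0 < δ) :
    ∃ E' : Fin (k + 1) → X → ℝ, (∀ j, Smooth (E' j)) ∧ (∀ x ∈ La (hyperfilter ℕ) u,
      |G (last _) x| ≤ 1 / 4 → ∃ μ ≥ (1 : ℝ), ∀ j, E' j x = μ * Dd j x) ∧
      ∀ᶠ i in (hyperfilter ℕ : Filter ℕ), ∫ x in K₀, zt ψ G E' x * θ (u i x) *
        |Jd g (Fin.snoc (α := fun _ => X → ℝ) E' (u i)) x| ∂vol g ≤
          Cst (pull ι g) ψ E {z | w (ι z) ≤ 5 / 4 ∧ 1 / 2 ≤ G (last _) (ι z)} + δ := by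
  have F := N.vf
  have sD : ∀ j, Smooth (Dd j) := fun j => hDd ▸ CD.sub (D.smG _) cd_const
  have ci := hι.emb.continuous
  have mK : ∀ z, ι z ∈ K₀ := fun z => F.la_sub (hι.rng ▸ mem_range_self z : ι z ∈ _ \ S).1
  have c5 : IsCompact {z | w (ι z) ≤ 5 / 4} := cw.of_isClosed_subset
    (isClosed_le (sw.cont.comp ci) continuous_const) fun z (q : w (ι z) ≤ _) =>
      show w (ι z) ≤ _ by linarith
  obtain ⟨Dx⟩ := P210V.exists_Ex hι c5 (V := {x | w x < 11 / 8})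
    (isOpen_lt sw.cont continuous_const) fun z (q : w (ι z) ≤ 5 / 4) => show w (ι z) < _ by linarith
  obtain ⟨E', hE'⟩ : ∃ E' : Fin (k + 1) → X → ℝ, E' = fun j x => 8 * m * Dd j x +
    Dx.eF (fun z => E j z - 8 * m * Dd j (ι z)) x := ⟨_, rfl⟩
  have sE' : ∀ j, Smooth (E' j) := fun j => hE' ▸ CD.add (CD.mul cd_const (sD j))
    (Dx.sm_eF (CD.sub (sE j) (CD.mul cd_const (smooth_comp hι.sm (sD j)))))
  have x1 : ∀ j z, E' j (ι z) = E j z := fun j z => by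
    simp only [hE']
    rw [Dx.eF_ι' fun z q => sub_eq_zero.2 (e1 z (not_le.1 q) j)]
    ring
  have x2 : ∀ x ∈ S, ∀ j, E' j x = 8 * m * Dd j x := fun x hx j => by
    simp only [hE']
    rw [Dx.eF_off fun q => by linarith [inn x hx, show w x < 11 / 8 from Dx.sub q], add_zero]
  have cN : IsCompact {z | w (ι z) ≤ 5 / 4 ∧ 1 / 2 ≤ G (last _) (ι z)} :=
    c5.inter_right (isClosed_le continuous_const ((D.smG _).cont.comp ci))
  refine ⟨E', sE', fun x hx q => ?_, (hJ _ X Z ℕ _ g f h u c e _ K₀ S Λ ι E' _ θ F cS hι rg sE'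
    (cont_zt hψ D.smG sE') (zt_nn hψ) (fun x hx => zt_off hψ hr sE' (by
      rw [nsq_mul _ (x2 x hx)]; linarith [g3 x hx])) θc θs θ0 _ cN (fun z q => ?_) δ δ0).mono
    fun i q => q.trans_eq ?_⟩
  · by_cases t : x ∈ S
    · exact ⟨8 * m, by linarith, x2 x t⟩
    obtain ⟨z, rfl⟩ : x ∈ range ι := hι.rng ▸ ⟨hx, t⟩
    simp only [x1]
    exact e2 z (.inr (by simpa only [nsq, hDd] using (avoid_alg (μ := 1) (σ := 0)
      ((F.sub (mK z)).2.1.trans_eq (Fin.sum_univ_castSucc _)) q g1).1))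
  · have q1 : nsq E' (ι z) ≤ 1 / 128 := (hψ.sum_le (right_ne_zero_of_mul q)).trans hr
    have q2 : 0 < G (last _) (ι z) := not_le.1 fun t =>
      left_ne_zero_of_mul q (smoothTransition.zero_of_nonpos (by linarith))
    have q3 : nsq Dd (ι z) ≤ 1 / 16 := not_lt.1 fun t => by
      obtain ⟨μ, m3, t1⟩ := e2 z (.inr (by linarith))
      rw [nsq_mul μ fun j => (x1 j z).trans (t1 j)] at q1
      linarith [le_mul_of_one_le_left (by linarith : 0 ≤ nsq Dd (ι z)) (one_le_pow₀ (n := 2) m3)]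
    have q4 : w (ι z) ≤ 5 / 4 := not_lt.1 fun t => by
      rw [nsq_mul _ fun j => (x1 j z).trans (e1 z t j)] at q1
      linarith [far z (by linarith)]
    exact ⟨q4, sep z (by linarith) q2 q3⟩
  rw [θ1, one_mul]
  exact congrArg (· + δ) (setIntegral_congr_fun cN.measurableSet fun z q => by
    simp only [zt, x1]
    rw [smoothTransition.one_of_one_le (by linarith [q.2]), one_mul])

end

/-- **STEP** -/
theorem step {k : ℕ} (hR : RL) (hN : NKT (k + 2) (k + 2)) (hT : TRACE) (hJ : NIJ) (hZ : ZC k) :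
    CUBE (k + 2) := by
  intro s s0 r ψ hψ hr
  push_cast at hr
  have k0 : (0 : ℝ) ≤ k := Nat.cast_nonneg k
  have r2 := sq_nonneg r
  have hr' : ((k + 1 : ℕ) : ℝ) * r ^ 2 ≤ 1 / 128 := by push_cast; linarith
  obtain ⟨A₁, T₁, C₁, c1, hZ⟩ := hZ s s0 r ψ hψ hr'
  obtain ⟨C₂, c2, hN⟩ := hN
  obtain ⟨θ, θc, θs, θ0, θ1, hD⟩ := defo r ψ hψ (by nlinarith)
  obtain ⟨C₃, hC₃⟩ : ∃ C₃, C₃ = C₂ * (k + 2) * (1 + 4 / s) + 1 := ⟨_, rfl⟩
  have c3 : 0 ≤ C₃ := hC₃ ▸ by positivity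
  obtain ⟨C₄, hC₄⟩ : ∃ C₄, C₄ = C₁ * (exp s * 4 ^ (k + 1)) * C₃ := ⟨_, rfl⟩
  have c4 : 0 ≤ C₄ := hC₄ ▸ by positivity
  refine ⟨4 * (|A₁| + C₂ + 1), T₁ + 1 + 2 / s, 2 * C₄, by positivity,
    fun A hA X _ g v l p G O D δ δ0 => ?_⟩
  have a1 := abs_nonneg A₁
  have R : Rad O G := ⟨D.smG, D.opn, D.cpt⟩
  have hg := D.ok.met
  obtain ⟨f, sf, f1, f2⟩ := D.rel hR (by linarith) s0 (T₁ + 1) (δ := δ / 3 / (C₄ + 1))
    (by positivity)
  have M0 := Ms_nn (s := s) (T := T₁ + 1 + 2 / s) (A := A) (g := g) (S := Rv g v) (l := l)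
    (K := K4 G O) D.p0
  generalize Ms s (T₁ + 1 + 2 / s) A g (Rv g v) l p (K4 G O) = M at f2 M0 ⊢
  obtain ⟨p₀, p0, hp⟩ := D.cpt.exists_forall_le' D.smp.cont.continuousOn (a := 0) fun x _ => D.p0 x
  obtain ⟨h, u, c, e, K₀, Λ, B, N⟩ := hN X g l G O f hg D.ok.sml D.ok.l0 R
    (fun x q => ⟨(D.bd x q).1, fun i => ((D.bd x q).2.2 i).1⟩) sf (min (1 / 2) p₀) (by positivity)
  have F := N.vf
  obtain ⟨S, cS, sA, nul, reg⟩ := F.cyl
  have kS := F.cpt_la.of_isClosed_subset cS sA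
  obtain ⟨b₀, g1, δ₀, δ1, g2⟩ := P210T.gp' (m := k + 1) (by linarith) kS nul
    (b := fun j => G j.castSucc) (fun j => D.smG _) (r := 1 / 16) (by norm_num)
  replace g1 : ∑ j, b₀ j ^ 2 ≤ 1 / 256 := g1.le.trans (by norm_num)
  obtain ⟨m, m1, m2⟩ : ∃ m ≥ (1 : ℝ), 1 ≤ m * δ₀ :=
    ⟨max 1 δ₀⁻¹, le_max_left _ _, (inv_mul_cancel₀ δ1.ne').ge.trans
      (mul_le_mul_of_nonneg_right (le_max_right _ _) δ1.le)⟩
  obtain ⟨Dd, hDd⟩ : ∃ Dd : Fin (k + 1) → X → ℝ, Dd = fun j x => G j.castSucc x - b₀ j := ⟨_, rfl⟩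
  have g3 : ∀ x ∈ S, 1 < m ^ 2 * nsq Dd x := fun x hx => ((one_le_pow₀ m2).trans_eq
    (mul_pow _ _ 2)).trans_lt (mul_lt_mul_of_pos_left (hDd ▸ g2 x hx) (by positivity))
  suffices H : ∃ E : Fin (k + 1) → X → ℝ, (∀ j, Smooth (E j)) ∧ (∀ x ∈ La (hyperfilter ℕ) u,
      |G (last _) x| ≤ 1 / 4 → ∃ μ ≥ (1 : ℝ), ∀ j, E j x = μ * Dd j x) ∧
      ∀ᶠ i in (hyperfilter ℕ : Filter ℕ), ∫ x in K₀, zt ψ G E x * θ (u i x) *
        |Jd g (Fin.snoc (α := fun _ => X → ℝ) E (u i)) x| ∂vol g ≤ 2 * C₄ * M + δ by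
    obtain ⟨E, sE, e1, e2⟩ := H
    have hr2 : (((k + 1 : ℕ) : ℝ) + 1) * r ^ 2 ≤ 1 / 128 := by push_cast; linarith
    exact fin_of hψ hr2 hg R N g1 sE (by simpa only [hDd] using e1) θc θ0
      (fun u su => hD _ X g G E u hr2 D.smG sE su) e2
  rcases (La (hyperfilter ℕ) u \ S).eq_empty_or_nonempty with q | q
  · have sE : ∀ j, Smooth fun x => m * Dd j x := fun j =>
      CD.mul cd_const (hDd ▸ CD.sub (D.smG _) cd_const)
    obtain ⟨ρ, hρ⟩ := θs.isCompact.isBounded.subset_closedBall 0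
    refine ⟨_, sE, fun x _ _ => ⟨m, m1, fun _ => rfl⟩, (ev_slab F ρ (P := fun x =>
      zt ψ G (fun j x => m * Dd j x) x = 0) fun x hx => notMem_tsupport_iff_eventuallyEq.1
        (zt_off hψ hr' sE ((g3 x (sdiff_eq_empty.1 q hx)).le.trans_eq
          (nsq_mul m fun _ => rfl).symm))).mono fun i w => ?_⟩
    rw [setIntegral_eq_zero_of_forall_eq_zero fun x _ => ?_]
    · positivity
    · by_cases t : θ (u i x) = 0
      · rw [t, mul_zero, zero_mul]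
      · rw [w x (by simpa using hρ (subset_tsupport _ t)), zero_mul, zero_mul]
  obtain ⟨Z, _, ι, Λ', hι, mc, rg⟩ := reg q
  obtain ⟨L, L0, H⟩ := D.zc N f1 kS nul hι mc rg g1 hDd g3
  obtain ⟨Γ, hZ⟩ := hZ (A / 4) (by linarith [le_abs_self A₁]) m m1 L L0
  obtain ⟨β, W, w, q, t, sw, inn, H⟩ := H Γ
  obtain ⟨E, sE, e1, e2, e3⟩ := hZ Γ le_rfl Z _ _ _ _ _ _ _ _ _ _ _ H (δ / 3) (by positivity)
  obtain ⟨E', sE', e4, e5⟩ := D.ext N hJ hψ hr' θc θs θ0 θ1 cS hι rg g1 hDd m1 g3 sw inn H.cpt H.far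
    H.sep sE e1 e2 (δ := δ / 3) (by positivity)
  refine ⟨E', sE', e4, e5.mono fun i q => q.trans ?_⟩
  have i2 := D.mass (T := T₁) (C := C₂) sf s0 (by linarith) (min_le_left _ p₀) H.ok.met
    hι.emb.continuous H.cpt
  have i3 := hT _ X Z ℕ _ g f h u c e _ K₀ _ Λ _ ι B F hι rg N.smB N.B01 (by positivity) N.sgn _
    H.cpt
  have i4 := D.area N (by linarith) s0 c2 fun x q => (min_le_right _ _).trans (hp x q)
  rw [← hC₃] at i4
  have i5 := mul_le_mul_of_nonneg_left (i2.trans (mul_le_mul_of_nonneg_left (i3.trans (i4.trans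
    (mul_le_mul_of_nonneg_left f2 c3))) (by positivity))) c1
  have i6 : C₄ * (δ / 3 / (C₄ + 1)) ≤ δ / 3 := by
    rw [← mul_div_assoc, div_le_iff₀ (by positivity)]; linarith
  have i7 : C₁ * (exp s * 4 ^ (k + 1) * (C₃ * (2 * M + δ / 3 / (C₄ + 1)))) =
      2 * C₄ * M + C₄ * (δ / 3 / (C₄ + 1)) := by rw [hC₄]; ring
  linarith

end Vale.Agent.P223U
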